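import Vale.Agent.P213.Cylinder.Mor

/-!
# P213: atoms of a cylinder

A cell times the interval is a cell; for an atom it is the atom of the product.
-/

namespace Vale.Agent.P213

noncomputable section

namespace ADC

variable {K L : ADC}

theorem Good.hd (hK : K.Good) : ∀ b, K.deg b = 0 → K.d b = 0 := fun b hb =>
  Finsupp.ext fun c => by_contra fun h => by
    have := hK.deg_d b c h
    omega

theorem IsAtom.eq {b : K.B} {p q : K.Cell} (hp : K.IsAtom b p) (hq : K.IsAtom b q) : p = q :=
  Cell.ext fun k e => (hp k e).trans (hq k e).symm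

theorem part_sub {P N : K.B →₀ ℕ} (h : ∀ b, P b = 0 ∨ N b = 0) (e : Bool) :
    K.part e (K.toZ P - K.toZ N) = if e then P else N := by
  ext b
  rcases h b with hb | hb <;> cases e <;> simp [part, toZ, hb]

theorem part_disjoint (z : K.B →₀ ℤ) (b : K.B) : K.part true z b = 0 ∨ K.part false z b = 0 := by
  simp only [part, if_true, Bool.false_eq_true, if_false, Finsupp.mapRange_apply, Finsupp.neg_apply]
  omega

theorem part_emb (o : Option Bool) (e : Bool) (z : K.B →₀ ℤ) :
    K.tens.part e (emb o z) = emb o (K.part e z) := by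
  ext ⟨b, o'⟩
  by_cases h : o' = o
  · subst h
    rw [emb_apply_self]
    cases e <;> simp [part, emb_apply_self]
  · rw [emb_apply_ne o _ h]
    cases e <;> simp [part, emb_apply_ne o z (p := (b, o')) h]

/-- The end of the interval met by the side `e` in dimension `l`. -/
def endAt (l : ℕ) (e : Bool) : Option Bool := some (if Even l then e else !e)

theorem endAt_succ (l : ℕ) (e : Bool) : endAt (l + 1) e = endAt l (!e) := by
  by_cases h : Even l <;> simp [endAt, Nat.even_add_one, h]

theorem endAt_ne_none (l : ℕ) (e : Bool) : endAt l e ≠ none := by simp [endAt]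

theorem endAt_ne (l : ℕ) : endAt l true ≠ endAt l false := by
  by_cases h : Even l <;> simp [endAt, h]

theorem edgeTerm_none (l : ℕ) (z : K.B →₀ ℤ) :
    edgeTerm none l z = emb (endAt l true) z - emb (endAt l false) z := by
  by_cases h : Even l
  · simp [edgeTerm, endAt, h, h.neg_one_pow]
  · simp [edgeTerm, endAt, h, (Nat.not_even_iff_odd.1 h).neg_one_pow]

/-- The chains of a double sequence times the interval. -/
def cylX (X : ℕ → Bool → (K.B →₀ ℕ)) (l : ℕ) (e : Bool) : K.B × Option Bool →₀ ℕ :=
  emb (endAt l e) (X l e) + if l = 0 then 0 else emb none (X (l - 1) e)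

theorem cylX_deg {X : ℕ → Bool → (K.B →₀ ℕ)} (h : ∀ k e b, X k e b ≠ 0 → K.deg b = k) (l : ℕ)
    (e : Bool) (p : K.B × Option Bool) (hp : cylX X l e p ≠ 0) : K.tens.deg p = l := by
  obtain ⟨b, o⟩ := p
  change K.deg b + _ = l
  cases o with
  | none =>
    by_cases hl : l = 0
    · simp [cylX, hl, emb_apply_ne _ _ (p := (b, none)) (endAt_ne_none 0 e).symm] at hp
    · simp [cylX, hl, emb_apply_ne _ _ (p := (b, none)) (endAt_ne_none l e).symm,
        emb_apply_self] at hp
      simp [h (l - 1) e b hp]
      omega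
  | some a =>
    have h2 : (if l = 0 then 0 else emb none (X (l - 1) e)) (b, some a) = 0 := by
      split_ifs
      · rfl
      · exact emb_apply_ne _ _ (by simp)
    rw [cylX, Finsupp.add_apply, h2, add_zero] at hp
    by_cases ha : some a = endAt l e
    · rw [ha, emb_apply_self] at hp
      simp [h l e b hp]
    · exact absurd (emb_apply_ne _ _ ha) hp

theorem cylX_bd (hd : ∀ b, K.deg b = 0 → K.d b = 0) {X : ℕ → Bool → (K.B →₀ ℕ)}
    (hX : ∀ k e b, X k e b ≠ 0 → K.deg b = k)
    (hbd : ∀ k e, K.bd (X (k + 1) e) = K.toZ (X k true) - K.toZ (X k false)) (l : ℕ) (e : Bool) :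
    K.tens.bd (cylX X (l + 1) e) = K.tens.toZ (cylX X l true) - K.tens.toZ (cylX X l false) := by
  have h0 : ∀ e, K.bd (X 0 e) = 0 := fun e => Finset.sum_eq_zero fun t ht => by
    show X 0 e t • K.d t = 0
    rw [hd t (hX 0 e t (Finsupp.mem_support_iff.1 ht)), smul_zero]
  simp only [cylX, Nat.succ_ne_zero, if_false, Nat.add_sub_cancel]
  rw [ADC.bd_add, tens_bd_emb _ (hX (l + 1) e), tens_bd_emb _ (hX l e), edgeTerm_none,
    show edgeTerm (endAt (l + 1) e) (l + 1) (K.toZ (X (l + 1) e)) = 0 by
      simp [edgeTerm, endAt_ne_none], add_zero, endAt_succ, hbd]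
  rcases l with _ | l
  · simp only [h0, map_zero, zero_add, if_true, add_zero, toZ_emb, map_sub]
    cases e <;> simp
  · simp only [hbd, map_sub, Nat.succ_ne_zero, if_false, Nat.add_sub_cancel]
    erw [K.tens.toZ_add, K.tens.toZ_add]
    simp only [toZ_emb]
    cases e <;> simp <;> abel

/-- A cell times the interval. -/
def Cell.cyl (hd : ∀ b, K.deg b = 0 → K.d b = 0) (p : K.Cell) : K.tens.Cell where
  x := cylX p.x
  deg_eq := cylX_deg p.deg_eq
  aug e := by
    rw [cylX, if_pos rfl, add_zero, emb, Finsupp.mapDomain.addMonoidHom_apply,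
      Finsupp.sum_mapDomain_index (fun _ => rfl) fun _ _ _ => rfl]
    exact p.aug e
  boundary := cylX_bd hd p.deg_eq p.boundary
  bounded := by
    obtain ⟨N, hN⟩ := p.bounded
    refine ⟨N + 1, fun k e hk => ?_⟩
    simp [cylX, hN k e (by omega), hN (k - 1) e (by omega)]

theorem Mor.pushN_cylX (φ : Mor K L) (X : ℕ → Bool → (K.B →₀ ℕ)) (l : ℕ) (e : Bool) :
    pushN φ.tens.f (cylX X l e) = cylX (fun k a => pushN φ.f (X k a)) l e := by
  simp only [cylX, map_add]
  exact congrArg₂ _ (φ.pushN_emb _ _) (by
    split_ifs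
    · exact map_zero _
    · exact φ.pushN_emb _ _)

theorem Mor.cell_cyl (φ : Mor K L) (hd : ∀ b, K.deg b = 0 → K.d b = 0)
    (hd' : ∀ b, L.deg b = 0 → L.d b = 0) (p : K.Cell) :
    φ.tens.cell (p.cyl hd) = (φ.cell p).cyl hd' :=
  Cell.ext fun k e => φ.pushN_cylX p.x k e

theorem atomX_some (b : K.B) (o : Bool) (k : ℕ) (e : Bool) :
    K.tens.atomX (b, some o) k e = emb (some o) (K.atomX b k e) := by
  have hd : K.tens.deg (b, some o) = K.deg b := by simp
  have h : ∀ j, j ≤ K.deg b → K.tens.atomDown (b, some o) e j = emb (some o) (K.atomDown b e j) := by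
    intro j hj
    induction j with
    | zero => exact (emb_single (some o) b (1 : ℕ)).symm
    | succ j ih =>
      rw [atomDown, atomDown, ih (by omega), ← part_emb]
      congr 1
      induction K.atomDown b e j using Finsupp.induction_linear with
      | zero => simp [ADC.bd_zero]
      | add x y hx hy => rw [map_add, ADC.bd_add, ADC.bd_add, map_add, hx, hy]
      | single c r =>
        rw [emb_single, ADC.bd_single, ADC.bd_single, map_nsmul, tens_d]
        simp [edgeTerm]
  unfold atomX
  rw [hd]
  split_ifs with hk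
  · exact h _ (Nat.sub_le _ _)
  · exact (map_zero _).symm

theorem atomX_none (hd : ∀ b, K.deg b = 0 → K.d b = 0) {b : K.B} {p : K.Cell} (hp : K.IsAtom b p)
    (k : ℕ) (e : Bool) : K.tens.atomX (b, none) k e = (p.cyl hd).x k e := by
  set d := K.deg b with hdb
  have hdeg : K.tens.deg (b, none) = d + 1 := by simp [hdb]
  have top : ∀ e, p.x d e = Finsupp.single b 1 := fun e => by
    rw [hp, atomX, if_pos le_rfl, Nat.sub_self]
    rfl
  have high : ∀ k e, d < k → p.x k e = 0 := fun k e h => by
    rw [hp, atomX, if_neg (by omega)]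
  have down : ∀ k e, k < d → p.x k e = K.part e (K.bd (p.x (k + 1) e)) := fun k e h => by
    rw [hp, hp, atomX, atomX, if_pos h.le, if_pos (show k + 1 ≤ K.deg b by omega),
      show K.deg b - k = (K.deg b - (k + 1)) + 1 by omega, atomDown]
  have disj : ∀ l, l ≤ d → ∀ q, cylX p.x l true q = 0 ∨ cylX p.x l false q = 0 := by
    intro l hl q
    obtain ⟨c, _ | a⟩ := q
    · by_cases h0 : l = 0
      · simp [cylX, h0, emb_apply_ne _ _ (p := (c, none)) (endAt_ne_none 0 true).symm]
      · have hlt : l - 1 < d := by omega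
        simp only [cylX, h0, if_false, Finsupp.add_apply, emb_apply_self,
          emb_apply_ne _ _ (p := (c, none)) (endAt_ne_none l true).symm,
          emb_apply_ne _ _ (p := (c, none)) (endAt_ne_none l false).symm, zero_add]
        rw [down _ true hlt, down _ false hlt, p.boundary, p.boundary]
        exact part_disjoint _ c
    · have h2 : ∀ e, (if l = 0 then 0 else emb none (p.x (l - 1) e)) (c, some a) = 0 := fun e => by
        split_ifs
        · rfl
        · exact emb_apply_ne _ _ (by simp)
      simp only [cylX, Finsupp.add_apply, h2, add_zero]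
      by_cases ha : some a = endAt l true
      · exact Or.inr (emb_apply_ne _ _ (ha ▸ endAt_ne l))
      · exact Or.inl (emb_apply_ne _ _ ha)
  have main : ∀ j ≤ d + 1, K.tens.atomDown (b, none) e j = cylX p.x (d + 1 - j) e := by
    intro j hj
    induction j with
    | zero =>
      simp [atomDown, cylX, high (d + 1) e (by omega), top e, emb_single]
    | succ j ih =>
      obtain ⟨l, hl⟩ : ∃ l, d + 1 - j = l + 1 := ⟨d - j, by omega⟩
      rw [atomDown, ih (by omega), hl, cylX_bd hd p.deg_eq p.boundary,
        part_sub (disj l (by omega)), show d + 1 - (j + 1) = l by omega]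
      cases e <;> rfl
  change _ = cylX p.x k e
  unfold atomX
  rw [hdeg]
  by_cases hk : k ≤ d + 1
  · rw [if_pos hk, main _ (Nat.sub_le _ _), show d + 1 - (d + 1 - k) = k by omega]
  · rw [if_neg hk, cylX, high k e (by omega), high (k - 1) e (by omega)]
    simp

theorem isAtom_cyl (hd : ∀ b, K.deg b = 0 → K.d b = 0) {b : K.B} {p : K.Cell}
    (hp : K.IsAtom b p) : K.tens.IsAtom (b, none) (p.cyl hd) :=
  fun k e => (atomX_none hd hp k e).symm

theorem isAtom_incl {b : K.B} {p : K.Cell} (hp : K.IsAtom b p) (o : Bool) :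
    K.tens.IsAtom (b, some o) ((Mor.incl K o).cell p) := fun k e => by
  rw [atomX_some, ← hp k e]
  change pushN (Mor.incl K o).f (p.x k e) = _
  exact DFunLike.congr_fun (f := pushN (Mor.incl K o).f) (g := emb (some o))
    (Finsupp.addHom_ext fun c r => by rw [pushN_single, emb_single]; simp [Mor.incl]) _

/-- A morphism carrying an atom to an atom does so after tensoring with the interval. -/
theorem Mor.tens_atom (φ : Mor K L) (hd : ∀ b, K.deg b = 0 → K.d b = 0)
    (hd' : ∀ b, L.deg b = 0 → L.d b = 0) {b : K.B} {c : L.B} {p : K.Cell}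
    (hp : K.IsAtom b p) (hc : L.IsAtom c (φ.cell p)) (o : Option Bool) {P : K.tens.Cell}
    (hP : K.tens.IsAtom (b, o) P) : L.tens.IsAtom (c, o) (φ.tens.cell P) := by
  cases o with
  | none =>
    rw [hP.eq (isAtom_cyl hd hp), φ.cell_cyl hd hd']
    exact isAtom_cyl hd' hc
  | some o =>
    rw [hP.eq (isAtom_incl hp o)]
    have h := congrArg (fun ψ : Mor K L.tens => ψ.cell p) (φ.incl_tens o)
    rw [show φ.tens.cell ((Mor.incl K o).cell p) = ((Mor.incl K o).comp φ.tens).cell p from
      Cell.ext fun k e => (Mor.pushN_comp _ _ _).symm, h,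
      show (φ.comp (Mor.incl L o)).cell p = (Mor.incl L o).cell (φ.cell p) from
        Cell.ext fun k e => Mor.pushN_comp _ _ _]
    exact isAtom_incl hc o

end ADC

end

end Vale.Agent.P213
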