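import Vale.Agent.P213.Cylinder.Shape
import Vale.Agent.P213.Cylinder.TensAtom

/-!
# P213: composition of morphisms out of the globe

Morphisms out of the infinite globe compose like cells. Morphisms out of a pasting are families of
such morphisms agreeing along the common faces.
-/

namespace Vale.Agent.P213

noncomputable section

namespace ADC.Mor

variable {K L M N : ADC}

theorem comp_assoc (φ : Mor K L) (ψ : Mor L M) (χ : Mor M N) :
    (φ.comp ψ).comp χ = φ.comp (ψ.comp χ) :=
  Mor.ext fun b => (Mor.pushN_comp ψ χ (φ.f b)).symm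

theorem comp_id (φ : Mor K L) : φ.comp (id L) = φ :=
  Mor.ext fun b => pushN_id (φ.f b)

theorem id_comp (φ : Mor K L) : (id K).comp φ = φ :=
  Mor.ext fun b => pushN_single_one φ.f b

theorem cell_comp (φ : Mor K L) (ψ : Mor L M) (p : K.Cell) :
    (φ.comp ψ).cell p = ψ.cell (φ.cell p) :=
  Cell.ext fun k e => pushN_comp φ ψ (p.x k e)

theorem globe_bd (ψ : Mor globe.adc L) (k : ℕ) (a : Bool) :
    L.bd (ψ.f (k + 1, a)) = L.toZ (ψ.f (k, true)) - L.toZ (ψ.f (k, false)) := by
  rw [ψ.comm, show globe.adc.d (k + 1, a) = _ from globe.dB_pos (b := (k + 1, a))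
    (Nat.succ_ne_zero k), map_sub, pushZ_single_one, pushZ_single_one]
  rfl

theorem globe_bd_zero (ψ : Mor globe.adc L) (a : Bool) : L.bd (ψ.f (0, a)) = 0 := by
  rw [ψ.comm, show globe.adc.d (0, a) = 0 from globe.dB_zero (b := (0, a)) rfl, map_zero]

theorem face_comp_f (e : Bool) (n : ℕ) (ψ : Mor globe.adc L) (k : ℕ) (a : Bool) :
    ((globeFace e n).comp ψ).f (k, a) =
      if k < n then ψ.f (k, a) else if k = n then ψ.f (n, e) else 0 := by
  change pushN ψ.f ((globeFace e n).f (k, a)) = _
  rw [globeFace_f]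
  split_ifs
  · exact pushN_single_one ψ.f (k, a)
  · exact pushN_single_one ψ.f (n, e)
  · exact map_zero _

theorem face_face_comp (e e' : Bool) (i j : ℕ) (ψ : Mor globe.adc L) :
    (globeFace e i).comp ((globeFace e' j).comp ψ) =
      if i < j then (globeFace e i).comp ψ else (globeFace e' j).comp ψ := by
  rw [← comp_assoc, globeFace_comp]
  split_ifs <;> rfl

/-- Composability along dimension `p`. -/
def Composable (p : ℕ) (ψ₀ ψ₁ : Mor globe.adc L) : Prop :=
  (globeFace true p).comp ψ₀ = (globeFace false p).comp ψ₁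

theorem composable_iff {p : ℕ} {ψ₀ ψ₁ : Mor globe.adc L} : Composable p ψ₀ ψ₁ ↔
    ψ₀.f (p, true) = ψ₁.f (p, false) ∧ ∀ k a, k < p → ψ₀.f (k, a) = ψ₁.f (k, a) := by
  refine ⟨fun h => ⟨?_, fun k a hk => ?_⟩, fun ⟨h1, h2⟩ => Mor.ext fun ⟨k, a⟩ => ?_⟩
  · have := congrArg (fun χ : Mor globe.adc L => χ.f (p, true)) h
    simpa [face_comp_f] using this
  · have := congrArg (fun χ : Mor globe.adc L => χ.f (k, a)) h
    simpa [face_comp_f, hk] using this
  · rw [face_comp_f, face_comp_f]
    split_ifs with hk hk'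
    · exact h2 k a hk
    · exact h1
    · rfl

theorem Composable.comp {p : ℕ} {ψ₀ ψ₁ : Mor globe.adc L} (h : Composable p ψ₀ ψ₁)
    (χ : Mor L M) : Composable p (ψ₀.comp χ) (ψ₁.comp χ) := by
  unfold Composable at h ⊢
  rw [← comp_assoc, ← comp_assoc, h]

theorem Composable.face {p i : ℕ} {ψ₀ ψ₁ : Mor globe.adc L} (h : Composable p ψ₀ ψ₁) (e : Bool)
    (hi : p < i) : Composable p ((globeFace e i).comp ψ₀) ((globeFace e i).comp ψ₁) := by
  unfold Composable at h ⊢
  rw [face_face_comp, face_face_comp, if_pos hi, if_pos hi, h]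

/-- The composite chains. -/
def compF (p : ℕ) (ψ₀ ψ₁ : Mor globe.adc L) (b : ℕ × Bool) : L.B →₀ ℕ :=
  if b.1 < p then ψ₀.f b
  else if b.1 = p then (if b.2 then ψ₁.f b else ψ₀.f b) else ψ₀.f b + ψ₁.f b

theorem compF_deg (p : ℕ) (ψ₀ ψ₁ : Mor globe.adc L) (b : ℕ × Bool) (t : L.B)
    (ht : compF p ψ₀ ψ₁ b t ≠ 0) : L.deg t = globe.deg b := by
  unfold compF at ht
  split_ifs at ht
  · exact ψ₀.deg_eq b t ht
  · exact ψ₁.deg_eq b t ht
  · exact ψ₀.deg_eq b t ht
  · simp only [Finsupp.add_apply, ne_eq, Nat.add_eq_zero_iff, not_and_or] at ht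
    exact ht.elim (ψ₀.deg_eq b t) (ψ₁.deg_eq b t)

theorem compF_zero (p : ℕ) (ψ₀ ψ₁ : Mor globe.adc L) (a : Bool) :
    compF p ψ₀ ψ₁ (0, a) = ψ₀.f (0, a) ∨ compF p ψ₀ ψ₁ (0, a) = ψ₁.f (0, a) := by
  rcases Nat.eq_zero_or_pos p with rfl | hp
  · cases a <;> simp [compF]
  · simp [compF, hp]

theorem compF_bd (p : ℕ) {ψ₀ ψ₁ : Mor globe.adc L} (h : Composable p ψ₀ ψ₁) (k : ℕ) (a : Bool) :
    L.bd (compF p ψ₀ ψ₁ (k + 1, a)) =
      L.toZ (compF p ψ₀ ψ₁ (k, true)) - L.toZ (compF p ψ₀ ψ₁ (k, false)) := by
  obtain ⟨hc, hlt⟩ := composable_iff.1 h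
  simp only [compF]
  rcases lt_trichotomy (k + 1) p with hk | hk | hk
  · rw [if_pos hk, if_pos (show k < p by omega), if_pos (show k < p by omega)]
    exact globe_bd ψ₀ k a
  · rw [if_neg (show ¬k + 1 < p by omega), if_pos hk, if_pos (show k < p by omega),
      if_pos (show k < p by omega)]
    cases a
    · rw [if_neg Bool.false_ne_true]
      exact globe_bd ψ₀ k false
    · rw [if_pos rfl, globe_bd ψ₁ k true, hlt k true (by omega), hlt k false (by omega)]
  · rw [if_neg (show ¬k + 1 < p by omega), if_neg (show k + 1 ≠ p by omega), L.bd_add,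
      globe_bd ψ₀ k a, globe_bd ψ₁ k a]
    rcases Nat.lt_or_eq_of_le (show p ≤ k by omega) with h' | rfl
    · rw [if_neg (show ¬k < p by omega), if_neg (show k ≠ p by omega),
        if_neg (show ¬k < p by omega), if_neg (show k ≠ p by omega), L.toZ_add, L.toZ_add]
      abel
    · simp only [lt_irrefl, if_false, if_true, Bool.false_eq_true, hc]
      abel

open Classical in
/-- The composite along dimension `p`; the first morphism if they are not composable. -/
def compMor (p : ℕ) (ψ₀ ψ₁ : Mor globe.adc L) : Mor globe.adc L :=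
  if h : Composable p ψ₀ ψ₁ then
    globe.lift (compF p ψ₀ ψ₁) (compF_deg p ψ₀ ψ₁)
      (fun b hb => by
        obtain ⟨k, a⟩ := b
        obtain rfl : k = 0 := hb
        rcases compF_zero p ψ₀ ψ₁ a with e | e <;> rw [e]
        · exact ψ₀.aug _ rfl
        · exact ψ₁.aug _ rfl)
      (fun b hb => by
        obtain ⟨k, a⟩ := b
        obtain rfl : k = 0 := hb
        rcases compF_zero p ψ₀ ψ₁ a with e | e <;> rw [e]
        · exact globe_bd_zero ψ₀ a
        · exact globe_bd_zero ψ₁ a)
      (fun b hb => by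
        obtain ⟨k, a⟩ := b
        obtain ⟨k, rfl⟩ := Nat.exists_eq_succ_of_ne_zero hb
        exact compF_bd p h k a)
  else ψ₀

theorem compMor_f {p : ℕ} {ψ₀ ψ₁ : Mor globe.adc L} (h : Composable p ψ₀ ψ₁) (k : ℕ) (a : Bool) :
    (compMor p ψ₀ ψ₁).f (k, a) =
      if k < p then ψ₀.f (k, a)
      else if k = p then (if a then ψ₁.f (k, a) else ψ₀.f (k, a))
      else ψ₀.f (k, a) + ψ₁.f (k, a) := by
  rw [compMor, dif_pos h]
  rfl

theorem compMor_comp {p : ℕ} {ψ₀ ψ₁ : Mor globe.adc L} (h : Composable p ψ₀ ψ₁) (χ : Mor L M) :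
    (compMor p ψ₀ ψ₁).comp χ = compMor p (ψ₀.comp χ) (ψ₁.comp χ) := by
  refine Mor.ext fun ⟨k, a⟩ => ?_
  rw [compMor_f (h.comp χ)]
  change pushN χ.f ((compMor p ψ₀ ψ₁).f (k, a)) = _
  rw [compMor_f h]
  split_ifs <;> first | rfl | exact map_add _ _ _

theorem face_comp_compMor {p : ℕ} {ψ₀ ψ₁ : Mor globe.adc L} (h : Composable p ψ₀ ψ₁) (e : Bool)
    (i : ℕ) : (globeFace e i).comp (compMor p ψ₀ ψ₁) =
      if i ≤ p then (globeFace e i).comp (if e then ψ₁ else ψ₀)
      else compMor p ((globeFace e i).comp ψ₀) ((globeFace e i).comp ψ₁) := by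
  obtain ⟨hc, hlt⟩ := composable_iff.1 h
  split_ifs with hi he
  · refine Mor.ext fun ⟨k, a⟩ => ?_
    subst he
    rw [face_comp_f, face_comp_f, compMor_f h, compMor_f h]
    rcases lt_trichotomy k i with hk | hk | hk
    · simp [hk, show k < p by omega, hlt k a (by omega)]
    · subst hk
      rcases Nat.lt_or_eq_of_le hi with h' | rfl
      · simp [h', hlt k true h']
      · simp
    · simp [show ¬k < i by omega, show k ≠ i by omega]
  · refine Mor.ext fun ⟨k, a⟩ => ?_
    rw [Bool.not_eq_true] at he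
    subst he
    rw [face_comp_f, face_comp_f, compMor_f h, compMor_f h]
    rcases lt_trichotomy k i with hk | hk | hk
    · simp [hk, show k < p by omega]
    · subst hk
      rcases Nat.lt_or_eq_of_le hi with h' | rfl <;> simp [*]
    · simp [show ¬k < i by omega, show k ≠ i by omega]
  · refine Mor.ext fun ⟨k, a⟩ => ?_
    rw [face_comp_f, compMor_f h, compMor_f h, compMor_f (h.face e (not_le.1 hi)),
      face_comp_f, face_comp_f]
    rcases lt_trichotomy k i with hk | hk | hk
    · simp [hk]
    · subst hk; simp [show ¬k < p by omega, show k ≠ p by omega]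
    · simp [show ¬k < i by omega, show k ≠ i by omega, show ¬k < p by omega, show k ≠ p by omega]

theorem compMor_id_left (p : ℕ) (ψ : Mor globe.adc L) :
    compMor p ((globeFace false p).comp ψ) ψ = ψ := by
  have h : Composable p ((globeFace false p).comp ψ) ψ := by
    show _ = _
    rw [face_face_comp, if_neg (lt_irrefl p)]
  refine Mor.ext fun ⟨k, a⟩ => ?_
  rw [compMor_f h, face_comp_f]
  rcases lt_trichotomy k p with hk | hk | hk
  · simp [hk]
  · subst hk; cases a <;> simp
  · simp [show ¬k < p by omega, show k ≠ p by omega]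

theorem compMor_id_right (p : ℕ) (ψ : Mor globe.adc L) :
    compMor p ψ ((globeFace true p).comp ψ) = ψ := by
  have h : Composable p ψ ((globeFace true p).comp ψ) := by
    show _ = _
    rw [face_face_comp, if_neg (lt_irrefl p)]
  refine Mor.ext fun ⟨k, a⟩ => ?_
  rw [compMor_f h, face_comp_f]
  rcases lt_trichotomy k p with hk | hk | hk
  · simp [hk]
  · subst hk; cases a <;> simp
  · simp [show ¬k < p by omega, show k ≠ p by omega]

theorem compMor_assoc {p : ℕ} {x y z : Mor globe.adc L} (hxy : Composable p x y)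
    (hyz : Composable p y z) : Composable p (compMor p x y) z ∧ Composable p x (compMor p y z) ∧
      compMor p (compMor p x y) z = compMor p x (compMor p y z) := by
  have a1 := composable_iff.1 hxy
  have a2 := composable_iff.1 hyz
  have h1 : Composable p (compMor p x y) z := composable_iff.2
    ⟨by simp [compMor_f hxy, a2.1], fun k a hk => by simp [compMor_f hxy, hk, a1.2, a2.2]⟩
  have h2 : Composable p x (compMor p y z) := composable_iff.2
    ⟨by simp [compMor_f hyz, a1.1], fun k a hk => by simp [compMor_f hyz, hk, a1.2]⟩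
  refine ⟨h1, h2, Mor.ext fun ⟨k, a⟩ => ?_⟩
  rw [compMor_f h1, compMor_f h2, compMor_f hxy, compMor_f hyz]
  split_ifs <;> first | rfl | rw [add_assoc]

theorem compMor_interchange {m n : ℕ} {x x' y y' : Mor globe.adc L} (hmn : m < n)
    (hx : Composable n x x') (hy : Composable n y y') (hm : Composable m x y) :
    Composable m x' y' ∧ Composable m (compMor n x x') (compMor n y y') ∧
      Composable n (compMor m x y) (compMor m x' y') ∧
      compMor m (compMor n x x') (compMor n y y') =
        compMor n (compMor m x y) (compMor m x' y') := by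
  have ax := composable_iff.1 hx
  have ay := composable_iff.1 hy
  have am := composable_iff.1 hm
  have hm' : Composable m x' y' := composable_iff.2
    ⟨by rw [← ax.2 m true hmn, am.1, ay.2 m false hmn],
      fun k a hk => by rw [← ax.2 k a (by omega), am.2 k a hk, ay.2 k a (by omega)]⟩
  have h1 : Composable m (compMor n x x') (compMor n y y') := composable_iff.2
    ⟨by simp [compMor_f hx, compMor_f hy, hmn, am.1], fun k a hk => by
      simp [compMor_f hx, compMor_f hy, show k < n by omega, am.2 k a hk]⟩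
  have h2 : Composable n (compMor m x y) (compMor m x' y') := composable_iff.2
    ⟨by simp [compMor_f hm, compMor_f hm', show ¬n < m by omega, show n ≠ m by omega, ax.1, ay.1],
      fun k a hk => by rw [compMor_f hm, compMor_f hm', ax.2 k a hk, ay.2 k a hk]⟩
  refine ⟨hm', h1, h2, Mor.ext fun ⟨k, a⟩ => ?_⟩
  simp only [compMor_f h1, compMor_f h2, compMor_f hx, compMor_f hy, compMor_f hm, compMor_f hm']
  rcases lt_trichotomy k n with hk | hk | hk
  · simp [hk]
  · subst hk
    cases a <;> simp [show ¬k < m by omega, show k ≠ m by omega]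
  · simp [show ¬k < n by omega, show k ≠ n by omega, show ¬k < m by omega, show k ≠ m by omega]
    abel

end ADC.Mor

namespace ADC

variable {K L : ADC}

theorem Cell.comp_mor (hd : ∀ b, K.deg b = 0 → K.d b = 0) {p : ℕ} {x y : K.Cell}
    (h : Cell.face true p x = Cell.face false p y) :
    Mor.Composable p (x.mor hd) (y.mor hd) ∧
      (Cell.comp p x y).mor hd = Mor.compMor p (x.mor hd) (y.mor hd) := by
  have hc : Mor.Composable p (x.mor hd) (y.mor hd) := by
    show _ = _
    rw [← Cell.mor_face, ← Cell.mor_face, h]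
  refine ⟨hc, Mor.ext fun ⟨k, a⟩ => ?_⟩
  rw [Mor.compMor_f hc]
  exact Cell.comp_x h k a

end ADC

/-! ### Atoms of the globe and of its cylinder -/

theorem globe_hd : ∀ b, globe.adc.deg b = 0 → globe.adc.d b = 0 := globe_good.hd

theorem globe_atom_x (j : ℕ) (b : Bool) (k : ℕ) (a : Bool) :
    (globe.atom (j, b)).x k a =
      if k < j then Finsupp.single (k, a) 1 else if k = j then Finsupp.single (j, b) 1 else 0 := by
  have hs : ∀ s, s ≤ j → globe.side a s (j, b) = if s = 0 then (j, b) else (j - s, a) := by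
    intro s hs
    induction s with
    | zero => rfl
    | succ s ih =>
      rw [Glob.side, ih (by omega)]
      cases a <;> split_ifs <;> simp_all <;> omega
  change (if k ≤ j then Finsupp.single (globe.side a (j - k) (j, b)) 1 else 0) = _
  rcases lt_trichotomy k j with hk | hk | hk
  · rw [if_pos hk.le, if_pos hk, hs _ (Nat.sub_le _ _), if_neg (show j - k ≠ 0 by omega),
      show j - (j - k) = k by omega]
  · subst hk
    rw [if_pos le_rfl, if_neg (lt_irrefl _), if_pos rfl, Nat.sub_self]
    rfl
  · rw [if_neg (by omega), if_neg (by omega), if_neg (by omega)]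

theorem cell_atom_x {L : ADC} (ψ : ADC.Mor globe.adc L) (j : ℕ) (b : Bool) (k : ℕ) (a : Bool) :
    (ψ.cell (globe.atom (j, b))).x k a =
      if k < j then ψ.f (k, a) else if k = j then ψ.f (j, b) else 0 := by
  change ADC.pushN ψ.f ((globe.atom (j, b)).x k a) = _
  rw [globe_atom_x]
  split_ifs
  · exact ADC.pushN_single_one ψ.f (k, a)
  · exact ADC.pushN_single_one ψ.f (j, b)
  · exact map_zero _

/-- Collapse of a position in the globe. -/
def collapse (e : Bool) (n : ℕ) (b : ℕ × Bool) : ℕ × Bool := if b.1 < n then b else (n, e)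

theorem globeFace_atom (e : Bool) (n : ℕ) (b : ℕ × Bool) :
    (globeFace e n).cell (globe.atom b) = globe.atom (collapse e n b) := by
  obtain ⟨j, c⟩ := b
  refine ADC.Cell.ext fun k a => ?_
  rw [cell_atom_x]
  by_cases hj : j < n
  · rw [collapse, if_pos hj, globe_atom_x, globeFace_f, globeFace_f]
    rcases lt_trichotomy k j with hk | hk | hk
    · simp [hk, show k < n by omega]
    · subst hk; simp [hj]
    · simp [show ¬k < j by omega, show k ≠ j by omega]
  · rw [collapse, if_neg hj, globe_atom_x, globeFace_f, globeFace_f]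
    rcases lt_trichotomy k n with hk | hk | hk
    · simp [hk, show k < j by omega]
    · subst hk
      rcases Nat.lt_or_eq_of_le (not_lt.1 hj) with h | h
      · simp [h]
      · subst h; simp
    · simp [show ¬k < n by omega, show k ≠ n by omega]
      intros
      rw [if_neg hj, if_neg (show j ≠ n by omega)]

theorem compMor_atom {L : ADC} {p : ℕ} {ψ₀ ψ₁ : ADC.Mor globe.adc L}
    (h : ADC.Mor.Composable p ψ₀ ψ₁) (j : ℕ) (b : Bool) :
    (ADC.Mor.compMor p ψ₀ ψ₁).cell (globe.atom (j, b)) =
      if j < p then ψ₀.cell (globe.atom (j, b))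
      else if j = p then (if b then ψ₁.cell (globe.atom (j, b)) else ψ₀.cell (globe.atom (j, b)))
      else ADC.Cell.comp p (ψ₀.cell (globe.atom (j, b))) (ψ₁.cell (globe.atom (j, b))) := by
  obtain ⟨hc, hlt⟩ := ADC.Mor.composable_iff.1 h
  refine ADC.Cell.ext fun k a => ?_
  rw [cell_atom_x, ADC.Mor.compMor_f h, ADC.Mor.compMor_f h]
  rcases lt_trichotomy j p with hj | hj | hj
  · simp only [if_pos hj, cell_atom_x]
    rcases lt_trichotomy k j with hk | hk | hk
    · simp [hk, show k < p by omega]
    · subst hk; simp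
    · simp [show ¬k < j by omega, show k ≠ j by omega]
  · subst hj
    simp only [lt_irrefl, if_false, if_true]
    cases b <;> simp only [Bool.false_eq_true, if_false, if_true, cell_atom_x] <;>
      split_ifs <;> first | rfl | exact hlt _ _ (by assumption)
  · have hcomp : ADC.Cell.face true p (ψ₀.cell (globe.atom (j, b))) =
        ADC.Cell.face false p (ψ₁.cell (globe.atom (j, b))) := by
      refine ADC.Cell.composable_iff.2 ⟨?_, fun k a hk => ?_⟩
      · simp [cell_atom_x, hj, hc]
      · simp [cell_atom_x, show k < j by omega, hlt k a hk]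
    simp only [if_neg (show ¬j < p by omega), if_neg (show ¬j = p by omega),
      ADC.Cell.comp_x hcomp, ADC.Cell.compX, cell_atom_x]
    rcases lt_trichotomy k j with hk | hk | hk
    · simp [hk]
    · subst hk; simp [show ¬k < p by omega, show k ≠ p by omega]
    · simp [show ¬k < j by omega, show k ≠ j by omega, show ¬k < p by omega, show k ≠ p by omega]

/-- The atoms of the cylinder of the globe. -/
def gT : (ℕ × Bool) × Option Bool → globe.adc.tens.Cell
  | (b, none) => (globe.atom b).cyl globe_hd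
  | (b, some o) => (ADC.Mor.incl globe.adc o).cell (globe.atom b)

theorem isAtom_gT (x : (ℕ × Bool) × Option Bool) : globe.adc.tens.IsAtom x (gT x) := by
  obtain ⟨b, _ | o⟩ := x
  · exact ADC.isAtom_cyl globe_hd (globe.isAtom_atom b)
  · exact ADC.isAtom_incl (globe.isAtom_atom b) o

theorem globeFace_gT (e : Bool) (n : ℕ) (b : ℕ × Bool) (o : Option Bool) :
    (globeFace e n).tens.cell (gT (b, o)) = gT (collapse e n b, o) := by
  cases o with
  | none =>
    exact ((globeFace e n).cell_cyl globe_hd globe_hd (globe.atom b)).trans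
      (congrArg (fun c : globe.adc.Cell => c.cyl globe_hd) (globeFace_atom e n b))
  | some o =>
    change (globeFace e n).tens.cell ((ADC.Mor.incl globe.adc o).cell (globe.atom b)) = _
    rw [← ADC.Mor.cell_comp, ADC.Mor.incl_tens, ADC.Mor.cell_comp, globeFace_atom]
    rfl

/-! ### Morphisms out of pastings -/

namespace Paste

variable {m n r r' : ℕ}

/-- Families of values on globes which agree along the faces that a pasting identifies. -/
structure Coh {V : Type*} (m n : ℕ) (v : Fin r' → Fin r → ℕ × Bool → V) : Prop where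
  low : ∀ i i' l l' j a, j < m → v i l (j, a) = v i' l' (j, a)
  outer : ∀ i i' : Fin r', (i' : ℕ) = i + 1 → ∀ l l', v i l (m, true) = v i' l' (m, false)
  mid : ∀ i l l' j a, j < n → v i l (j, a) = v i l' (j, a)
  inner : ∀ i, ∀ l l' : Fin r, (l' : ℕ) = l + 1 → v i l (n, true) = v i l' (n, false)

theorem Coh.at_eq {V : Type*} (hmn : m < n) {v : Fin r' → Fin r → ℕ × Bool → V} (h : Coh m n v)
    {i i' : Fin r'} {l l' : Fin r} {j j' : ℕ} {a a' : Bool}
    (e : (at' i l j a : Paste m n r r') = at' i' l' j' a') : v i l (j, a) = v i' l' (j', a') := by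
  obtain rfl : j = j' := by rw [← deg_at (m := m) (n := n) i l j a, e, deg_at]
  rcases lt_trichotomy j m with h1 | h1 | h1
  · have : a = a' := by simpa [at', h1] using e
    subst this
    exact h.low i i' l l' j a h1
  · subst h1
    cases a <;> cases a' <;> simp [at', Fin.ext_iff] at e
    · obtain rfl : i = i' := Fin.ext e
      exact h.mid i l l' j false hmn
    · exact (h.outer i' i e l' l).symm
    · exact h.outer i i' e.symm l l'
    · obtain rfl : i = i' := Fin.ext e
      exact h.mid i l l' j true hmn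
  · rcases lt_trichotomy j n with h3 | h3 | h3
    · have : i = i' ∧ a = a' := by
        simpa [at', show ¬j < m by omega, show j ≠ m by omega, h3] using e
      obtain ⟨rfl, rfl⟩ := this
      exact h.mid i l l' j a h3
    · subst h3
      cases a <;> cases a' <;>
        simp [at', show ¬j < m by omega, show j ≠ m by omega, Fin.ext_iff] at e <;>
        obtain ⟨e₁, e₂⟩ := e <;> obtain rfl : i = i' := Fin.ext e₁
      · obtain rfl : l = l' := Fin.ext e₂
        rfl
      · exact (h.inner i l' l e₂).symm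
      · exact h.inner i l l' e₂.symm
      · obtain rfl : l = l' := Fin.ext e₂
        rfl
    · have : i = i' ∧ l = l' ∧ a = a' := by
        simpa [at', show ¬j < m by omega, show j ≠ m by omega, show ¬j < n by omega,
          show j ≠ n by omega] using e
      obtain ⟨rfl, rfl, rfl⟩ := this
      rfl

theorem coh (hmn : m < n) :
    Coh m n (fun i l b => (at' i l b.1 b.2 : Paste m n r r')) := by
  refine ⟨fun i i' l l' j a h => ?_, fun i i' h l l' => ?_, fun i l l' j a h => ?_,
    fun i l l' h => ?_⟩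
  · simp [at', h]
  · simp [at', Fin.ext_iff, h]
  · simp only [at']
    split_ifs <;> simp_all
  · simp [at', show ¬n < m by omega, show n ≠ m by omega, Fin.ext_iff, h]

theorem at_surj (hmn : m < n) (hr : 0 < r) (hr' : 0 < r') (x : Paste m n r r') :
    ∃ i l j a, at' i l j a = x := by
  cases x with
  | low j a => exact ⟨⟨0, hr'⟩, ⟨0, hr⟩, j, a, by simp [at', j.2]⟩
  | outer k =>
    by_cases hk : (k : ℕ) = r'
    · exact ⟨⟨r' - 1, by omega⟩, ⟨0, hr⟩, m, true, by simp [at', Fin.ext_iff]; omega⟩
    · exact ⟨⟨k, by omega⟩, ⟨0, hr⟩, m, false, by simp [at']⟩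
  | mid j h i a =>
    exact ⟨i, ⟨0, hr⟩, j, a, by simp [at', show ¬j < m by omega, show j ≠ m by omega, h.2]⟩
  | inner h i k =>
    by_cases hk : (k : ℕ) = r
    · exact ⟨i, ⟨r - 1, by omega⟩, n, true, by
        simp [at', show ¬n < m by omega, show n ≠ m by omega, Fin.ext_iff]; omega⟩
    · exact ⟨i, ⟨k, by omega⟩, n, false, by
        simp [at', show ¬n < m by omega, show n ≠ m by omega]⟩
  | high j h i l a =>
    exact ⟨i, l, j, a, by simp [at', show ¬j < m by omega, show j ≠ m by omega,
      show ¬j < n by omega, show j ≠ n by omega]⟩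

theorem side_at (i : Fin r') (l : Fin r) (j : ℕ) (a e : Bool) (s : ℕ) (hs : s ≤ j) :
    (pasting m n r r').side e s (at' i l j a) =
      at' i l (j - s) (if s = 0 then a else e) := by
  induction s with
  | zero => rfl
  | succ s ih =>
    obtain ⟨q, hq⟩ : ∃ q, j - s = q + 1 := ⟨j - s - 1, by omega⟩
    rw [Glob.side, ih (by omega), hq, show j - (s + 1) = q by omega]
    cases e <;> exact bdry_at i l q _ _

theorem incl_atom (i : Fin r') (l : Fin r) (b : ℕ × Bool) :
    (pasting m n r r').adc.IsAtom (at' i l b.1 b.2)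
      ((pasteIncl i l).cell (globe.atom b)) := by
  obtain ⟨j, c⟩ := b
  intro k a
  rw [cell_atom_x, Glob.atomX_eq]
  simp only [deg_at]
  rcases lt_trichotomy k j with hk | hk | hk
  · rw [if_pos hk, if_pos hk.le, side_at i l j c a _ (Nat.sub_le _ _),
      if_neg (show j - k ≠ 0 by omega), show j - (j - k) = k by omega]
    rfl
  · subst hk
    rw [if_neg (lt_irrefl _), if_pos rfl, if_pos le_rfl, Nat.sub_self]
    rfl
  · rw [if_neg (by omega), if_neg (by omega), if_neg (by omega)]

theorem Coh.composable_m {L : ADC} {ψ : Fin r' → Fin r → ADC.Mor globe.adc L}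
    (h : Coh m n fun i l => (ψ i l).f) {i i' : Fin r'} (hi : (i' : ℕ) = i + 1) (l l' : Fin r) :
    ADC.Mor.Composable m (ψ i l) (ψ i' l') :=
  ADC.Mor.composable_iff.2 ⟨h.outer i i' hi l l', fun k a hk => h.low i i' l l' k a hk⟩

theorem Coh.composable_n {L : ADC} {ψ : Fin r' → Fin r → ADC.Mor globe.adc L}
    (h : Coh m n fun i l => (ψ i l).f) (i : Fin r') {l l' : Fin r} (hl : (l' : ℕ) = l + 1) :
    ADC.Mor.Composable n (ψ i l) (ψ i l') :=
  ADC.Mor.composable_iff.2 ⟨h.inner i l l' hl, fun k a hk => h.mid i l l' k a hk⟩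

theorem incl_coh (hmn : m < n) :
    Coh m n fun i l => (pasteIncl i l : ADC.Mor globe.adc (pasting m n r r').adc).f :=
  have h := coh (r := r) (r' := r') hmn
  ⟨fun i i' l l' j a hj => congrArg (Finsupp.single · 1) (h.low i i' l l' j a hj),
    fun i i' hi l l' => congrArg (Finsupp.single · 1) (h.outer i i' hi l l'),
    fun i l l' j a hj => congrArg (Finsupp.single · 1) (h.mid i l l' j a hj),
    fun i l l' hl => congrArg (Finsupp.single · 1) (h.inner i l l' hl)⟩

theorem exists_desc {L : ADC} (hmn : m < n) (hr : 0 < r) (hr' : 0 < r')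
    (ψ : Fin r' → Fin r → ADC.Mor globe.adc L) (h : Coh m n fun i l => (ψ i l).f) :
    ∃ χ : ADC.Mor (pasting m n r r').adc L, ∀ i l, (pasteIncl i l).comp χ = ψ i l := by
  choose pi pl pj pa hp using at_surj (m := m) (n := n) hmn hr hr'
  let f : Paste m n r r' → (L.B →₀ ℕ) := fun x => (ψ (pi x) (pl x)).f (pj x, pa x)
  have hf : ∀ i l j a, f (at' i l j a) = (ψ i l).f (j, a) := fun i l j a =>
    h.at_eq hmn (hp _)
  have hdeg : ∀ x, pj x = x.deg := fun x => by
    have := congrArg Paste.deg (hp x)
    rwa [deg_at] at this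
  refine ⟨(pasting m n r r').lift f (fun x t ht => ?_) (fun x hx => ?_) (fun x hx => ?_)
    (fun x hx => ?_), fun i l => ADC.Mor.ext fun ⟨j, a⟩ => ?_⟩
  · exact ((ψ _ _).deg_eq _ t ht).trans (hdeg x)
  · exact (ψ _ _).aug _ ((hdeg x).trans hx)
  · show L.bd ((ψ _ _).f (pj x, pa x)) = 0
    rw [show pj x = 0 from (hdeg x).trans hx]
    exact ADC.Mor.globe_bd_zero _ _
  · change x.deg ≠ 0 at hx
    obtain ⟨q, hq⟩ := Nat.exists_eq_succ_of_ne_zero hx
    have hx' : at' (pi x) (pl x) (q + 1) (pa x) = x := by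
      rw [← Nat.succ_eq_add_one, ← hq, ← hdeg x, hp]
    show L.bd (f x) = L.toZ (f (bdry true x)) - L.toZ (f (bdry false x))
    rw [← hx', bdry_at, bdry_at, hf, hf, hf]
    exact ADC.Mor.globe_bd _ _ _
  · exact (ADC.pushN_single_one (K := (pasting m n r r').adc) (L := L) f (at' i l j a)).trans
      (hf i l j a)

end Paste

end

end Vale.Agent.P213
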