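import Vale.Agent.P213.Cylinder.Gamma

/-!
# P213: constant cylinders

A cell gives a functor out of the globe; composed with the projection it is the constant cylinder.
-/

namespace Vale.Agent.P213

open ADC.Mor (Composable compMor)

universe u

noncomputable section

/-- The source (`false`) or target (`true`) in dimension `n`. -/
def sideCell (X : OmCat.{u}) (x : X.carrier) (b : ℕ × Bool) : X.carrier :=
  if b.2 then X.t b.1 x else X.s b.1 x

theorem globe_atom_face (l : ℕ) (a e : Bool) :
    ADC.Cell.face e l (globe.atom (l + 1, a)) = globe.atom (l, e) := by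
  refine ADC.Cell.ext fun k c => ?_
  rw [ADC.Cell.face_x]
  rcases lt_trichotomy k l with hk | hk | hk
  · rw [if_pos hk, globe_atom_x, globe_atom_x, if_pos (show k < l + 1 by omega), if_pos hk]
  · subst hk
    simp [globe_atom_x]
  · simp [globe_atom_x, show ¬k < l by omega, show k ≠ l by omega]

theorem exists_cellFun (H : CylHyp.{u}) {X : OmCat.{u}} (x : X.carrier) :
    ∃ C : Fun globe.adc.nu X, ∀ b, C.toFun (globe.atom b) = sideCell X x b := by
  obtain ⟨C, hC, -⟩ := ADC.extend H.toFreeHyp globe_good (sideCell X x) (fun b => by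
      show X.s b.1 _ = _
      unfold sideCell
      split_ifs
      · rw [X.st, if_neg (lt_irrefl _)]
      · rw [X.ss, min_self]) fun l F hF b p q hb hp => by
    obtain ⟨j, a⟩ := b
    obtain rfl : j = l + 1 := hb
    rw [hp.eq (globe.isAtom_atom _), globe_atom_face, globe_atom_face]
    refine ⟨fun e => ?_, fun e => ?_⟩
    · rw [hF (l, false) q le_rfl (e ▸ globe.isAtom_atom _)]
      cases a
      · show X.s l (X.s (l + 1) x) = X.s l x
        rw [X.ss, min_eq_left (Nat.le_succ l)]
      · show X.s l (X.t (l + 1) x) = X.s l x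
        rw [X.st, if_pos (Nat.lt_succ_self l)]
    · rw [hF (l, true) q le_rfl (e ▸ globe.isAtom_atom _)]
      cases a
      · show X.t l (X.s (l + 1) x) = X.t l x
        rw [X.ts, if_pos (Nat.lt_succ_self l)]
      · show X.t l (X.t (l + 1) x) = X.t l x
        rw [X.tt, min_eq_left (Nat.le_succ l)]
  exact ⟨C, fun b => hC b _ (globe.isAtom_atom b)⟩

/-- The functor out of the globe of a cell. -/
def cellFun (H : CylHyp.{u}) {X : OmCat.{u}} (x : X.carrier) : Fun globe.adc.nu X :=
  Classical.choose (exists_cellFun H x)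

theorem cellFun_atom (H : CylHyp.{u}) {X : OmCat.{u}} (x : X.carrier) (b : ℕ × Bool) :
    (cellFun H x).toFun (globe.atom b) = if b.2 then X.t b.1 x else X.s b.1 x :=
  Classical.choose_spec (exists_cellFun H x) b

theorem globe_ext (H : CylHyp.{u}) {X : OmCat.{u}} {F G : Fun globe.adc.nu X}
    (h : ∀ b, F.toFun (globe.atom b) = G.toFun (globe.atom b)) : F = G :=
  H.ext globe.adc globe_good X F G fun b p hp => by rw [hp.eq (globe.isAtom_atom b)]; exact h b

theorem face_cellFun (H : CylHyp.{u}) {X : OmCat.{u}} (x : X.carrier) (e : Bool) (n : ℕ) :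
    (globeFace e n).map.comp (cellFun H x) = cellFun H (if e then X.t n x else X.s n x) := by
  refine globe_ext H fun ⟨j, a⟩ => ?_
  refine (congrArg (cellFun H x).toFun (globeFace_atom e n (j, a))).trans ?_
  rw [cellFun_atom, cellFun_atom]
  unfold collapse
  by_cases hj : j < n
  · cases a <;> cases e <;> simp [hj, X.ss, X.st, X.ts, X.tt, min_eq_left hj.le]
  · cases a <;> cases e <;> simp [hj, X.ss, X.st, X.ts, X.tt, min_eq_right (not_lt.1 hj)]

theorem pull_proj {X : OmCat.{u}} {K L : ADC} (ψ : ADC.Mor K L) (g : Fun L.nu X) :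
    pull ψ ((ADC.Mor.proj L).map.comp g) = (ADC.Mor.proj K).map.comp (ψ.map.comp g) := by
  change (ψ.tens.map.comp (ADC.Mor.proj L).map).comp g =
    ((ADC.Mor.proj K).map.comp ψ.map).comp g
  rw [← ADC.Mor.map_comp', ← ADC.Mor.map_comp', ADC.Mor.tens_proj]

/-- The constant cylinder of a cell, as a functor out of the cylinder of the globe. -/
def constPart (H : CylHyp.{u}) {X : OmCat.{u}} (x : X.carrier) : Fun globe.adc.tens.nu X :=
  (ADC.Mor.proj globe.adc).map.comp (cellFun H x)

theorem face_constPart (H : CylHyp.{u}) {X : OmCat.{u}} (x : X.carrier) (e : Bool) (n : ℕ) :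
    pull (globeFace e n) (constPart H x) = constPart H (if e then X.t n x else X.s n x) := by
  rw [constPart, pull_proj, face_cellFun]
  rfl

theorem bdd_constPart (H : CylHyp.{u}) {X : OmCat.{u}} (x : X.carrier) :
    GBdd (constPart H x) := by
  obtain ⟨N, hN⟩ := X.bounded x
  exact ⟨N, by rw [face_constPart, if_neg Bool.false_ne_true, hN]⟩

theorem gcomp_constPart (H : CylHyp.{u}) {X : OmCat.{u}} {n : ℕ} {x y : X.carrier}
    (e : X.t n x = X.s n y) :
    gcomp H n (constPart H x) (constPart H y) = constPart H (X.comp n x y) := by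
  have hlo : ∀ j a, j < n → sideCell X x (j, a) = sideCell X y (j, a) := fun j a hj => by
    have h1 := congrArg (X.s j) e
    have h2 := congrArg (X.t j) e
    rw [X.st, if_pos hj, X.ss, min_eq_left hj.le] at h1
    rw [X.tt, min_eq_left hj.le, X.ts, if_pos hj] at h2
    cases a
    · exact h1
    · exact h2
  obtain ⟨D, hD, -⟩ := Paste.exists_glue_plain H (Nat.lt_succ_self n) Nat.one_pos two_pos
    (fun (i : Fin 2) (_ : Fin 1) => ![cellFun H x, cellFun H y] i) (by
      have := Paste.coh_two (v₀ := fun b => (cellFun H x).toFun (globe.atom b))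
        (v₁ := fun b => (cellFun H y).toFun (globe.atom b))
        (fun j a hj => by rw [cellFun_atom, cellFun_atom]; exact hlo j a hj)
        (by rw [cellFun_atom, cellFun_atom]; exact e)
      refine (show (fun (i : Fin 2) (_ : Fin 1) b =>
        (![cellFun H x, cellFun H y] i).toFun (globe.atom b)) =
        fun i _ => ![fun b => (cellFun H x).toFun (globe.atom b),
          fun b => (cellFun H y).toFun (globe.atom b)] i from ?_) ▸ this
      funext i _ b
      fin_cases i <;> rfl)
  have hc : Composable n (pasteIncl (m := n) (n := n + 1) (0 : Fin 2) (0 : Fin 1))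
      (pasteIncl 1 0) :=
    (Paste.incl_coh (Nat.lt_succ_self n)).composable_m rfl 0 0
  have d0 : (pasteIncl 0 0).map.comp D = cellFun H x := hD 0 0
  have d1 : (pasteIncl 1 0).map.comp D = cellFun H y := hD 1 0
  unfold constPart
  rw [← d0, ← d1, ← pull_proj, ← pull_proj, gcomp_pull H hc, pull_proj]
  refine congrArg (Fun.comp _) (globe_ext H fun ⟨j, b⟩ => ?_)
  rw [cellFun_atom]
  change D.toFun ((compMor n _ _).cell (globe.atom (j, b))) = _
  have h0 : D.toFun ((pasteIncl 0 0).cell (globe.atom (j, b))) = sideCell X x (j, b) :=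
    (congrArg (fun T : Fun globe.adc.nu X => T.toFun (globe.atom (j, b))) d0).trans
      (cellFun_atom H x _)
  have h1 : D.toFun ((pasteIncl 1 0).cell (globe.atom (j, b))) = sideCell X y (j, b) :=
    (congrArg (fun T : Fun globe.adc.nu X => T.toFun (globe.atom (j, b))) d1).trans
      (cellFun_atom H y _)
  rw [compMor_atom hc]
  rcases lt_trichotomy j n with hj | hj | hj
  · rw [if_pos hj, h0]
    cases b
    · show X.s j x = X.s j (X.comp n x y)
      rw [X.s_comp j n x y e, if_pos hj.le]
    · show X.t j x = X.t j (X.comp n x y)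
      rw [X.t_comp j n x y e, if_pos hj.le]
      exact hlo j true hj
  · subst hj
    rw [if_neg (lt_irrefl _), if_pos rfl]
    cases b
    · rw [if_neg Bool.false_ne_true, h0]
      show X.s j x = X.s j (X.comp j x y)
      rw [X.s_comp j j x y e, if_pos le_rfl]
    · rw [if_pos rfl, h1]
      show X.t j y = X.t j (X.comp j x y)
      rw [X.t_comp j j x y e, if_pos le_rfl]
  · rw [if_neg (by omega), if_neg (by omega), D.map_comp n, h0, h1]
    · cases b
      · show X.comp n (X.s j x) (X.s j y) = X.s j (X.comp n x y)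
        rw [X.s_comp j n x y e, if_neg (by omega)]
      · show X.comp n (X.t j x) (X.t j y) = X.t j (X.comp n x y)
        rw [X.t_comp j n x y e, if_neg (by omega)]
    · obtain ⟨hb, hlt⟩ := ADC.Mor.composable_iff.1 hc
      refine ADC.Cell.composable_iff.2 ⟨?_, fun k a hk => ?_⟩
      · rw [cell_atom_x, cell_atom_x, if_pos hj, if_pos hj, hb]
      · rw [cell_atom_x, cell_atom_x, if_pos (by omega), if_pos (by omega), hlt k a hk]

/-- The functor of constant cylinders. -/
def constFun (H : CylHyp.{u}) (X : OmCat.{u}) : Fun X (gam H X) where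
  toFun x := ⟨constPart H x, bdd_constPart H x⟩
  map_s n x := Subtype.ext (face_constPart H x false n).symm
  map_t n x := Subtype.ext (face_constPart H x true n).symm
  map_comp n x y e := by
    have h : GComp n (constPart H x) (constPart H y) := by
      show _ = _
      rw [face_constPart, face_constPart, if_pos rfl, if_neg Bool.false_ne_true, e]
    exact Subtype.ext ((gcomp_constPart H e).symm.trans (gam_comp H (x := ⟨constPart H x, bdd_constPart H x⟩)
      (y := ⟨constPart H y, bdd_constPart H y⟩) h).symm)

theorem constFun_apply (H : CylHyp.{u}) (X : OmCat.{u}) (x : X.carrier) :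
    ((constFun H X).toFun x).1 = (ADC.Mor.proj globe.adc).map.comp (cellFun H x) := rfl

theorem constFun_nat (H : CylHyp.{u}) {X Y : OmCat.{u}} (F : Fun X Y) :
    (constFun H X).comp (gamMap H F) = F.comp (constFun H Y) := by
  refine Fun.ext fun x => Subtype.ext ?_
  refine congrArg (Fun.comp (ADC.Mor.proj globe.adc).map) (globe_ext H fun b => ?_ :
    (cellFun H x).comp F = cellFun H (F.toFun x))
  change F.toFun ((cellFun H x).toFun (globe.atom b)) = _
  rw [cellFun_atom, cellFun_atom]
  split_ifs
  · exact F.map_t _ _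
  · exact F.map_s _ _

theorem cellFun_image (H : CylHyp.{u}) {X : OmCat.{u}} {K : ADC} (hK : K.Good) (g : Fun K.nu X)
    (x : K.Cell) : cellFun H (g.toFun x) = (x.mor hK.hd).map.comp g := by
  refine globe_ext H fun ⟨j, a⟩ => ?_
  rw [cellFun_atom]
  have e : (x.mor hK.hd).cell (globe.atom (j, a)) = ADC.Cell.face a j x := by
    refine ADC.Cell.ext fun k c => ?_
    rw [cell_atom_x, ADC.Cell.face_x, ADC.Cell.mor_f, ADC.Cell.mor_f]
    split_ifs with h1 h2
    · rfl
    · rw [h2]
    · rfl
  show _ = g.toFun ((x.mor hK.hd).cell (globe.atom (j, a)))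
  rw [e]
  cases a
  · exact (g.map_s j x).symm
  · exact (g.map_t j x).symm

theorem constFun_proj (H : CylHyp.{u}) {X : OmCat.{u}} {K : ADC} (hK : K.Good) (g : Fun K.nu X)
    (x : K.Cell) : ((constFun H X).toFun (g.toFun x)).1 =
      pull (x.mor hK.hd) ((ADC.Mor.proj K).map.comp g) := by
  rw [constFun_apply, cellFun_image H hK, pull_proj]

end

end Vale.Agent.P213
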