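import Vale.Agent.P213.Cylinder.Gamma

/-!
# P213: the ends of a cylinder, and its dimension

Evaluation at a large atom on either end; cylinders in an `n`-category have dimension at most `n`.
-/

namespace Vale.Agent.P213

universe u

noncomputable section

variable {X Y : OmCat.{u}}

theorem face_globe_atom (e : Bool) {n j : ℕ} (b : Bool) (h : n < j) :
    ADC.Cell.face e n (globe.atom (j, b)) = globe.atom (n, e) := by
  refine ADC.Cell.ext fun k a => ?_
  rw [ADC.Cell.face_x, globe_atom_x, globe_atom_x, globe_atom_x]
  rcases lt_trichotomy k n with hk | hk | hk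
  · simp [hk, show k < j by omega]
  · subst hk; simp [h]
  · simp [show ¬k < n by omega, show k ≠ n by omega]

theorem face_gT_some (e : Bool) {n j : ℕ} (b o : Bool) (h : n < j) :
    ADC.Cell.face e n (gT ((j, b), some o)) = gT ((n, e), some o) := by
  change ADC.Cell.face e n ((ADC.Mor.incl globe.adc o).map.toFun (globe.atom (j, b))) =
    (ADC.Mor.incl globe.adc o).map.toFun (globe.atom (n, e))
  cases e
  · exact ((ADC.Mor.incl globe.adc o).map.map_s n _).symm.trans
      (congrArg _ (face_globe_atom false b h))
  · exact ((ADC.Mor.incl globe.adc o).map.map_t n _).symm.trans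
      (congrArg _ (face_globe_atom true b h))

/-- The value on one end. -/
def endVal {H : CylHyp.{u}} (o : Bool) (Φ : (gam H X).carrier) : X.carrier :=
  Φ.1.toFun (gT ((Classical.choose Φ.2, false), some o))

theorem endVal_eq {H : CylHyp.{u}} (o : Bool) (Φ : (gam H X).carrier) {N : ℕ}
    (hN : pull (globeFace false N) Φ.1 = Φ.1) :
    endVal o Φ = Φ.1.toFun (gT ((N, false), some o)) := by
  have key : ∀ N M, pull (globeFace false N) Φ.1 = Φ.1 → N ≤ M →
      Φ.1.toFun (gT ((M, false), some o)) = Φ.1.toFun (gT ((N, false), some o)) := by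
    intro N M hN hM
    conv_lhs => rw [← hN, pull_gT, collapse, if_neg (show ¬M < N by omega)]
  have h1 := key _ (max (Classical.choose Φ.2) N) (Classical.choose_spec Φ.2) (le_max_left _ _)
  have h2 := key N (max (Classical.choose Φ.2) N) hN (le_max_right _ _)
  exact h1.symm.trans h2

/-- One end of the cylinders. -/
def endFun (H : CylHyp.{u}) (X : OmCat.{u}) (o : Bool) : Fun (gam H X) X where
  toFun := endVal o
  map_s n Φ := by
    obtain ⟨N, hN⟩ := Φ.2
    rw [endVal_eq o Φ (pull_of_le hN (show N ≤ max N n + 1 by omega) false)]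
    rw [endVal_eq o ((gam H X).s n Φ) (N := n) (by
      show pull _ (pull _ Φ.1) = pull _ Φ.1
      rw [pull_face_face, if_neg (lt_irrefl n)])]
    refine (pull_gT false n Φ.1 (n, false) (some o)).trans ?_
    rw [collapse, if_neg (lt_irrefl n), ← Φ.1.map_s]
    exact congrArg _ (face_gT_some false false o (show n < max N n + 1 by omega)).symm
  map_t n Φ := by
    obtain ⟨N, hN⟩ := Φ.2
    rw [endVal_eq o Φ (pull_of_le hN (show N ≤ max N n + 1 by omega) false)]
    rw [endVal_eq o ((gam H X).t n Φ) (N := n) (by
      show pull _ (pull _ Φ.1) = pull _ Φ.1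
      rw [pull_face_face, if_neg (lt_irrefl n)])]
    refine (pull_gT true n Φ.1 (n, false) (some o)).trans ?_
    rw [collapse, if_neg (lt_irrefl n), ← Φ.1.map_t]
    exact congrArg _ (face_gT_some true false o (show n < max N n + 1 by omega)).symm
  map_comp p x y e := by
    have h : GComp p x.1 y.1 := congrArg Subtype.val e
    obtain ⟨N, hN⟩ := x.2
    obtain ⟨M, hM⟩ := y.2
    set R := N + M + p + 1 with hR
    rw [endVal_eq o x (pull_of_le hN (show N ≤ R by omega) false),
      endVal_eq o y (pull_of_le hM (show M ≤ R by omega) false),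
      endVal_eq o ((gam H X).comp p x y) (N := R) (by
        rw [gam_comp H h, face_gcomp H h, if_neg (show ¬R ≤ p by omega),
          pull_of_le hN (show N ≤ R by omega), pull_of_le hM (show M ≤ R by omega)]), gam_comp H h]
    obtain ⟨L, W, ψ₀, ψ₁, hc, e₀, e₁⟩ := h.rep H
    rw [← e₀, ← e₁, gcomp_pull H hc]
    have step : ∀ ψ : ADC.Mor globe.adc L, (pull ψ W).toFun (gT ((R, false), some o)) =
        ((ADC.Mor.incl L o).map.comp W).toFun (ψ.cell (globe.atom (R, false))) := fun ψ => by
      refine congrArg W.toFun ?_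
      change ψ.tens.cell ((ADC.Mor.incl globe.adc o).cell (globe.atom (R, false))) =
        (ADC.Mor.incl L o).cell (ψ.cell (globe.atom (R, false)))
      rw [← ADC.Mor.cell_comp, ADC.Mor.incl_tens, ADC.Mor.cell_comp]
    rw [step, step, step, compMor_atom hc, if_neg (show ¬R < p by omega),
      if_neg (show R ≠ p by omega)]
    refine ((ADC.Mor.incl L o).map.comp W).map_comp p _ _ ?_
    obtain ⟨hlt, hle⟩ := ADC.Mor.composable_iff.1 hc
    refine ADC.Cell.composable_iff.2 ⟨?_, fun k a hk => ?_⟩
    · simp [cell_atom_x, show p < R by omega, hlt]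
    · simp [cell_atom_x, show k < R by omega, hle k a hk]

theorem endFun_nat (H : CylHyp.{u}) (F : Fun X Y) (o : Bool) :
    (gamMap H F).comp (endFun H Y o) = (endFun H X o).comp F :=
  Fun.ext fun Φ => by
    obtain ⟨N, hN⟩ := Φ.2
    have h : pull (globeFace false N) ((gamMap H F).toFun Φ).1 = ((gamMap H F).toFun Φ).1 :=
      show (pull (globeFace false N) Φ.1).comp F = Φ.1.comp F from
        congrArg (fun T : Fun globe.adc.tens.nu X => T.comp F) hN
    exact (endVal_eq o ((gamMap H F).toFun Φ) h).trans
      (congrArg F.toFun (endVal_eq o Φ hN)).symm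

/-- Cylinders in an `n`-category form an `n`-category. -/
theorem gam_isNCat (H : CylHyp.{u}) {n : ℕ∞} (hX : IsNCat n X) : IsNCat n (gam H X) := by
  intro k hk Φ
  apply Subtype.ext
  have hG := H.tensGood _ globe_good
  have hfix : ∀ y, X.s k y = y := hX k hk
  change pull (globeFace false k) Φ.1 = Φ.1
  have agree : (globe.adc.tens.nu.subι _ (globe.adc.tens.nu.skel_closed k)).comp
      (pull (globeFace false k) Φ.1) =
      (globe.adc.tens.nu.subι _ (globe.adc.tens.nu.skel_closed k)).comp Φ.1 := by
    refine ADC.skel_ext H.toFreeHyp hG _ _ fun b q hb hq => ?_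
    obtain ⟨⟨j, a⟩, o⟩ := b
    change (pull (globeFace false k) Φ.1).toFun q.1 = Φ.1.toFun q.1
    rw [hq.eq (isAtom_gT _), pull_gT]
    change j + _ ≤ k at hb
    by_cases hj : j < k
    · rw [collapse, if_pos hj]
    · cases o with
      | none => simp at hb; omega
      | some o =>
        obtain rfl : j = k := by simp at hb; omega
        rw [collapse, if_neg hj]
        cases a
        · rfl
        · rw [← face_gT_some false false o (Nat.lt_succ_self j),
            ← face_gT_some true false o (Nat.lt_succ_self j)]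
          refine (Φ.1.map_s j _).trans (((hfix _).trans ?_).trans (Φ.1.map_t j _).symm)
          conv_rhs => rw [← hfix (Φ.1.toFun _), X.ts, if_neg (lt_irrefl j), hfix]
  refine Fun.ext fun z => ?_
  have hz : globe.adc.tens.nu.s k (globe.adc.tens.nu.s k z) = globe.adc.tens.nu.s k z := by
    rw [globe.adc.tens.nu.ss, min_self]
  have := congrArg (fun T : Fun (globe.adc.tens.nu.skel k) X => T.toFun ⟨_, hz⟩) agree
  change (pull (globeFace false k) Φ.1).toFun (globe.adc.tens.nu.s k z) =
    Φ.1.toFun (globe.adc.tens.nu.s k z) at this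
  rw [Fun.map_s, Fun.map_s, hfix, hfix] at this
  exact this

end

end Vale.Agent.P213
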