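import Vale.Agent.P213.Cylinder.Mor
import Vale.Agent.P213.Cylinder.TensAtom
import Vale.Agent.P213.Spec

/-!
# P213: functors out of free omega-categories

Generation by atoms, extension of values on atoms, and gluing along atom-preserving morphisms.
-/

namespace Vale.Agent.P213

universe u

noncomputable section

/-- What is used about free omega-categories. -/
structure FreeHyp : Prop where
  atom : Spec.AtomCell
  zero : Spec.FreeZero.{u}
  succ : Spec.FreeSucc.{u}
  ext : Spec.FreeExt.{u}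
  glue : Spec.FreeGlue.{u}
  zero0 : Spec.FreeZero.{0}
  succ0 : Spec.FreeSucc.{0}

/-- A functor on skeleta. -/
def Fun.skelMap {C : OmCat.{0}} {D : OmCat.{0}} (F : Fun C D) (k : ℕ) :
    Fun (C.skel k) (D.skel k) :=
  D.toSub ((C.subι _ (C.skel_closed k)).comp F) _ _ fun x =>
    (F.map_s k x.1).symm.trans (congrArg F.toFun x.2)

/-- The inclusion of a skeleton in the next. -/
def OmCat.skelSucc (C : OmCat.{0}) (k : ℕ) : Fun (C.skel k) (C.skel (k + 1)) :=
  C.toSub (C.subι _ (C.skel_closed k)) _ _ fun x => by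
    show C.s (k + 1) x.1 = x.1
    rw [← x.2, C.ss, min_eq_right (Nat.le_succ k)]

theorem OmCat.subι_apply {C : OmCat.{u}} {Q : C.carrier → Prop} (h : C.Closed Q)
    (x : {x // Q x}) : (C.subι Q h).toFun x = x.1 := rfl

namespace ADC

variable {K G : ADC}

theorem IsAtom.face_eq {b : K.B} {p : K.Cell} (hp : K.IsAtom b p) {k : ℕ} (h : K.deg b ≤ k)
    (e : Bool) : Cell.face e k p = p := by
  refine Cell.ext fun j a => ?_
  rw [Cell.face_x]
  split_ifs with h1 h2
  · rfl
  · subst h2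
    rw [hp, hp, atomX, atomX]
    split_ifs with h3
    · rw [show K.deg b - j = 0 by omega]
      rfl
    · rfl
  · rw [hp, atomX, if_neg (by omega)]

theorem gen (H : FreeHyp.{u}) (hK : K.Good) {Q : K.Cell → Prop} (hQ : K.nu.Closed Q) (k : ℕ)
    (hb : ∀ b p, K.deg b ≤ k → K.IsAtom b p → Q p) (p : K.Cell) (hp : K.nu.s k p = p) : Q p := by
  choose at0 hat0 using H.atom K hK
  have main : ∀ l ≤ k, ∃ F : Fun (K.nu.skel l) (K.nu.sub Q hQ), ∀ q, (F.toFun q).1 = q.1 := by
    intro l hl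
    induction l with
    | zero =>
      obtain ⟨F, hF, -⟩ := H.zero0 K hK (K.nu.sub Q hQ)
        (fun b => ⟨at0 b.1, hb b.1 _ (by omega) (hat0 b.1)⟩)
        fun b => Subtype.ext ((hat0 b.1).face_eq (le_of_eq b.2) false)
      refine ⟨F, fun q => ?_⟩
      obtain ⟨G, -, huniq⟩ := H.zero0 K hK K.nu (fun b => at0 b.1)
        fun b => (hat0 b.1).face_eq (le_of_eq b.2) false
      have h1 := huniq (F.comp (K.nu.subι Q hQ))
        fun b q hq => congrArg Subtype.val (hF b q hq)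
      have h2 := huniq (K.nu.subι _ (K.nu.skel_closed 0)) fun b q hq => hq.eq (hat0 b.1)
      exact congrArg (fun T : Fun (K.nu.skel 0) K.nu => T.toFun q) (h1.trans h2.symm)
    | succ l ih =>
      obtain ⟨F, hF⟩ := ih (by omega)
      obtain ⟨F', ⟨hr, ha⟩, -⟩ := H.succ0 K hK (K.nu.sub Q hQ) l F
        (fun b => ⟨at0 b.1, hb b.1 _ (by omega) (hat0 b.1)⟩)
        fun b => ⟨Subtype.ext ((hat0 b.1).face_eq (le_of_eq b.2) false), fun p q hp => by
          rw [hp.eq (hat0 b.1)]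
          exact ⟨fun e => Subtype.ext (e.symm.trans (hF q).symm),
            fun e => Subtype.ext (e.symm.trans (hF q).symm)⟩⟩
      refine ⟨F', fun q => ?_⟩
      obtain ⟨G, -, huniq⟩ := H.succ0 K hK K.nu l (K.nu.subι _ (K.nu.skel_closed l))
        (fun b => at0 b.1)
        fun b => ⟨(hat0 b.1).face_eq (le_of_eq b.2) false, fun p q hp => by
          rw [hp.eq (hat0 b.1)]
          exact ⟨fun e => e.symm, fun e => e.symm⟩⟩
      have h1 := huniq (F'.comp (K.nu.subι Q hQ)) ⟨fun q q' e =>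
          (congrArg Subtype.val (hr q q' e)).trans (hF q),
        fun b q hq => congrArg Subtype.val (ha b q hq)⟩
      have h2 := huniq (K.nu.subι _ (K.nu.skel_closed (l + 1))) ⟨fun q q' e => e,
        fun b q hq => hq.eq (hat0 b.1)⟩
      exact congrArg (fun T : Fun (K.nu.skel (l + 1)) K.nu => T.toFun q) (h1.trans h2.symm)
  obtain ⟨F, hF⟩ := main k le_rfl
  have := (F.toFun ⟨p, hp⟩).2
  rwa [hF] at this

theorem skel_ext (H : FreeHyp.{u}) (hK : K.Good) {X : OmCat.{u}} {k : ℕ}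
    (F G : Fun (K.nu.skel k) X)
    (h : ∀ b q, K.deg b ≤ k → K.IsAtom b q.1 → F.toFun q = G.toFun q) : F = G := by
  let Q : K.Cell → Prop := fun p => ∃ hp : K.nu.s k p = p, F.toFun ⟨p, hp⟩ = G.toFun ⟨p, hp⟩
  have hQ : K.nu.Closed Q := by
    refine ⟨fun i x ⟨hx, e⟩ => ?_, fun i x ⟨hx, e⟩ => ?_, fun i x y ⟨hx, e⟩ ⟨hy, e'⟩ hc => ?_⟩
    · refine ⟨(K.nu.skel_closed k).s i x hx, ?_⟩
      exact (F.map_s i ⟨x, hx⟩).trans ((congrArg (X.s i) e).trans (G.map_s i ⟨x, hx⟩).symm)
    · refine ⟨(K.nu.skel_closed k).t i x hx, ?_⟩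
      exact (F.map_t i ⟨x, hx⟩).trans ((congrArg (X.t i) e).trans (G.map_t i ⟨x, hx⟩).symm)
    · refine ⟨(K.nu.skel_closed k).comp i x y hx hy hc, ?_⟩
      have hc' : (K.nu.skel k).t i ⟨x, hx⟩ = (K.nu.skel k).s i ⟨y, hy⟩ := Subtype.ext hc
      have hv : (K.nu.skel k).comp i ⟨x, hx⟩ ⟨y, hy⟩ =
          ⟨K.nu.comp i x y, (K.nu.skel_closed k).comp i x y hx hy hc⟩ := dif_pos hc
      have h1 := F.map_comp i _ _ hc'
      have h2 := G.map_comp i _ _ hc'
      rw [hv] at h1 h2
      rw [h1, h2, e, e']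
  refine Fun.ext fun q => ?_
  obtain ⟨hp, e⟩ := gen H hK hQ k
    (fun b p hb hp => ⟨hp.face_eq hb false, h b _ hb hp⟩) q.1 q.2
  exact e

theorem extend (H : FreeHyp.{u}) (hK : K.Good) {X : OmCat.{u}} (v : K.B → X.carrier)
    (hv : ∀ b, X.s (K.deg b) (v b) = v b)
    (hc : ∀ l (F : Fun (K.nu.skel l) X),
      (∀ b q, K.deg b ≤ l → K.IsAtom b q.1 → F.toFun q = v b) →
      ∀ b p (q : (K.nu.skel l).carrier), K.deg b = l + 1 → K.IsAtom b p →
        (q.1 = Cell.face false l p → X.s l (v b) = F.toFun q) ∧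
        (q.1 = Cell.face true l p → X.t l (v b) = F.toFun q)) :
    ∃! F : Fun K.nu X, ∀ b p, K.IsAtom b p → F.toFun p = v b := by
  have main : ∀ l, ∃ F : Fun (K.nu.skel l) X,
      ∀ b q, K.deg b ≤ l → K.IsAtom b q.1 → F.toFun q = v b := by
    intro l
    induction l with
    | zero =>
      obtain ⟨F, hF, -⟩ := H.zero K hK X (fun b => v b.1) fun b => by
        have := hv b.1
        rwa [b.2] at this
      exact ⟨F, fun b q hb hq => hF ⟨b, by omega⟩ q hq⟩
    | succ l ih =>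
      obtain ⟨F, hF⟩ := ih
      obtain ⟨F', ⟨hr, ha⟩, -⟩ := H.succ K hK X l F (fun b => v b.1) fun b => ⟨by
          have := hv b.1
          rwa [b.2] at this, fun p q hp => hc l F hF b.1 p q b.2 hp⟩
      refine ⟨F', fun b q hb hq => ?_⟩
      by_cases hb' : K.deg b = l + 1
      · exact ha ⟨b, hb'⟩ q hq
      · have hb'' : K.deg b ≤ l := by omega
        exact (hr ⟨q.1, hq.face_eq hb'' false⟩ q rfl).trans (hF b _ hb'' hq)
  choose F hF using main
  obtain ⟨G, hG, -⟩ := H.glue K X F fun l q q' e => by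
    have := skel_ext H hK ((K.nu.skelSucc l).comp (F (l + 1))) (F l) fun b r hb hr =>
      (hF (l + 1) b _ (by omega) hr).trans (hF l b r hb hr).symm
    have h := congrArg (fun T : Fun (K.nu.skel l) X => T.toFun q) this
    rw [← h]
    exact congrArg (F (l + 1)).toFun (Subtype.ext e)
  refine ⟨G, fun b p hp => ?_, fun G' hG' => H.ext K hK X G' G fun b p hp => ?_⟩
  · exact (hG (K.deg b) ⟨p, hp.face_eq le_rfl false⟩).trans (hF _ b _ le_rfl hp)
  · exact (hG' b p hp).trans
      ((hG (K.deg b) ⟨p, hp.face_eq le_rfl false⟩).trans (hF _ b _ le_rfl hp)).symm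

/-- Gluing along a covering family of morphisms preserving atoms and degrees. -/
theorem glueFam (H : FreeHyp.{u}) (hG : G.Good) (hK : K.Good) {X : OmCat.{u}} {ι : Type}
    (φ : ι → Mor G K) (β : ι → G.B → K.B)
    (hβ : ∀ i a p, G.IsAtom a p → K.IsAtom (β i a) ((φ i).cell p))
    (hdeg : ∀ i a, K.deg (β i a) = G.deg a) (hcov : ∀ b, ∃ i a, β i a = b)
    (Φ : ι → Fun G.nu X)
    (hco : ∀ i j a a' p p', β i a = β j a' → G.IsAtom a p → G.IsAtom a' p' →
      (Φ i).toFun p = (Φ j).toFun p') :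
    ∃! F : Fun K.nu X, ∀ i, (φ i).map.comp F = Φ i := by
  choose i0 a0 hb0 using hcov
  choose at0 hat0 using H.atom G hG
  let v : K.B → X.carrier := fun b => (Φ (i0 b)).toFun (at0 (a0 b))
  have hvv : ∀ i a p, G.IsAtom a p → v (β i a) = (Φ i).toFun p := fun i a p hp =>
    hco _ _ _ _ _ _ (hb0 (β i a)) (hat0 _) hp
  have hatK : ∀ b, K.IsAtom b ((φ (i0 b)).cell (at0 (a0 b))) := fun b => by
    have := hβ (i0 b) (a0 b) _ (hat0 _)
    rwa [hb0 b] at this
  obtain ⟨F, hF, -⟩ := extend H hK v (fun b => by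
      rw [← hb0 b, hdeg, hvv _ _ _ (hat0 _), ← (Φ _).map_s]
      exact congrArg _ ((hat0 _).face_eq le_rfl false)) fun l F hF b p q hb hp => by
    have he : ∀ r, ((φ (i0 b)).map.skelMap l).toFun r =
        (⟨(φ (i0 b)).cell r.1, (((φ (i0 b)).map.skelMap l).toFun r).2⟩ : (K.nu.skel l).carrier) :=
      fun r => Subtype.ext rfl
    have agree : ((φ (i0 b)).map.skelMap l).comp F =
        (G.nu.subι _ (G.nu.skel_closed l)).comp (Φ (i0 b)) := skel_ext H hG _ _ fun a r ha hr => by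
      refine (hF _ _ (by rw [hdeg]; exact ha) (hβ (i0 b) a r.1 hr)).trans ?_
      exact hvv (i0 b) a r.1 hr
    have hp' : p = (φ (i0 b)).cell (at0 (a0 b)) :=
      hp.eq (hatK b)
    subst hp'
    refine ⟨fun e => ?_, fun e => ?_⟩
    · have hq : G.nu.s l (Cell.face false l (at0 (a0 b))) = Cell.face false l (at0 (a0 b)) := by
        rw [G.nu.ss, min_self]
      refine ((Φ (i0 b)).map_s l _).symm.trans ?_
      refine (congrArg (fun T : Fun (G.nu.skel l) X => T.toFun ⟨_, hq⟩) agree).symm.trans ?_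
      refine congrArg F.toFun (Subtype.ext ?_)
      rw [e]
      exact (φ (i0 b)).map.map_s l _
    · have hq : G.nu.s l (Cell.face true l (at0 (a0 b))) = Cell.face true l (at0 (a0 b)) := by
        rw [G.nu.st, if_neg (lt_irrefl l)]
      refine ((Φ (i0 b)).map_t l _).symm.trans ?_
      refine (congrArg (fun T : Fun (G.nu.skel l) X => T.toFun ⟨_, hq⟩) agree).symm.trans ?_
      refine congrArg F.toFun (Subtype.ext ?_)
      rw [e]
      exact (φ (i0 b)).map.map_t l _
  have key : ∀ i, (φ i).map.comp F = Φ i := fun i => H.ext G hG X _ _ fun a p hp =>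
    (hF _ _ (hβ i a p hp)).trans (hvv i a p hp)
  refine ⟨F, key, fun F' hF' => H.ext K hK X F' F fun b p hp => ?_⟩
  rw [hp.eq (hatK b)]
  exact (congrArg (fun T : Fun G.nu X => T.toFun (at0 (a0 b))) ((hF' (i0 b)).trans (key _).symm))

end ADC

end

end Vale.Agent.P213
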