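import Vale.Agent.P213.Cylinder.Glue

/-!
# P213: the omega-category of cylinders in an omega-category

A cylinder is a functor out of the globe times the interval that is fixed by some collapse. Faces
are given by collapses, composites by gluing.
-/

namespace Vale.Agent.P213

open ADC.Mor (Composable compMor compMor_comp)

universe u

noncomputable section

variable {X : OmCat.{u}} {Y : OmCat.{u}}

/-- Composability of functors out of the cylinder of the globe. -/
def GComp (p : ℕ) (Φ Ψ : Fun globe.adc.tens.nu X) : Prop :=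
  pull (globeFace true p) Φ = pull (globeFace false p) Ψ

namespace GComp

variable {p : ℕ} {Φ Ψ : Fun globe.adc.tens.nu X}

theorem low (h : GComp p Φ Ψ) (o : Option Bool) (j : ℕ) (a : Bool) (hj : j < p) :
    Φ.toFun (gT ((j, a), o)) = Ψ.toFun (gT ((j, a), o)) := by
  have := congrArg (fun T : Fun globe.adc.tens.nu X => T.toFun (gT ((j, a), o))) h
  simpa [pull_gT, collapse, hj] using this

theorem out (h : GComp p Φ Ψ) (o : Option Bool) :
    Φ.toFun (gT ((p, true), o)) = Ψ.toFun (gT ((p, false), o)) := by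
  have := congrArg (fun T : Fun globe.adc.tens.nu X => T.toFun (gT ((p, true), o))) h
  simpa [pull_gT, collapse] using this

theorem of_rep {L : ADC} {ψ₀ ψ₁ : ADC.Mor globe.adc L} (h : Composable p ψ₀ ψ₁)
    (W : Fun L.tens.nu X) : GComp p (pull ψ₀ W) (pull ψ₁ W) := by
  unfold GComp
  rw [← pull_comp, ← pull_comp, h]

theorem glue (H : CylHyp.{u}) (h : GComp p Φ Ψ) :
    ∃! W : Fun (pasting p (p + 1) 1 2).adc.tens.nu X,
      ∀ i l, pull (pasteIncl i l) W = ![Φ, Ψ] i := by
  refine Paste.exists_glue H (Nat.lt_succ_self p) Nat.one_pos two_pos (fun i _ => ![Φ, Ψ] i)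
    fun o => ?_
  have := Paste.coh_two (v₀ := fun b => Φ.toFun (gT (b, o))) (v₁ := fun b => Ψ.toFun (gT (b, o)))
    (h.low o) (h.out o)
  refine (show (fun (i : Fin 2) (_ : Fin 1) b => (![Φ, Ψ] i).toFun (gT (b, o))) =
    fun i _ => ![fun b => Φ.toFun (gT (b, o)), fun b => Ψ.toFun (gT (b, o))] i from ?_) ▸ this
  funext i _ b
  fin_cases i <;> rfl

end GComp

open Classical in
/-- The composite along dimension `p`; the first functor if they are not composable. -/
def gcomp (H : CylHyp.{u}) (p : ℕ) (Φ Ψ : Fun globe.adc.tens.nu X) : Fun globe.adc.tens.nu X :=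
  if h : GComp p Φ Ψ then
    pull (compMor p (pasteIncl 0 0) (pasteIncl 1 0)) (Classical.choose (h.glue H).exists)
  else Φ

/-- Composites are computed on morphisms. -/
theorem gcomp_pull (H : CylHyp.{u}) {L : ADC} {p : ℕ} {ψ₀ ψ₁ : ADC.Mor globe.adc L}
    (h : Composable p ψ₀ ψ₁) (W : Fun L.tens.nu X) :
    gcomp H p (pull ψ₀ W) (pull ψ₁ W) = pull (compMor p ψ₀ ψ₁) W := by
  have hg := GComp.of_rep h W
  rw [gcomp, dif_pos hg]
  obtain ⟨hlt, hle⟩ := ADC.Mor.composable_iff.1 h
  obtain ⟨χ, hχ⟩ := Paste.exists_desc (L := L) (Nat.lt_succ_self p) Nat.one_pos two_pos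
    (fun i (_ : Fin 1) => ![ψ₀, ψ₁] i) (by
      have := Paste.coh_two (v₀ := ψ₀.f) (v₁ := ψ₁.f) (fun j a hj => hle j a hj) hlt
      refine (show (fun (i : Fin 2) (_ : Fin 1) => (![ψ₀, ψ₁] i).f) =
        fun i _ => ![ψ₀.f, ψ₁.f] i from ?_) ▸ this
      funext i _
      fin_cases i <;> rfl)
  have hW : Classical.choose (hg.glue H).exists = pull χ W :=
    (hg.glue H).unique (Classical.choose_spec (hg.glue H).exists) fun i l => by
      rw [← pull_comp, hχ]
      fin_cases i <;> rfl
  have hc : Composable p (pasteIncl (m := p) (n := p + 1) (0 : Fin 2) (0 : Fin 1))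
      (pasteIncl 1 0) :=
    (Paste.incl_coh (Nat.lt_succ_self p)).composable_m rfl 0 0
  rw [hW, ← pull_comp, compMor_comp hc, hχ, hχ]
  rfl

theorem GComp.rep (H : CylHyp.{u}) {p : ℕ} {Φ Ψ : Fun globe.adc.tens.nu X} (h : GComp p Φ Ψ) :
    ∃ (L : ADC) (W : Fun L.tens.nu X) (ψ₀ ψ₁ : ADC.Mor globe.adc L),
      Composable p ψ₀ ψ₁ ∧ pull ψ₀ W = Φ ∧ pull ψ₁ W = Ψ := by
  obtain ⟨W, hW, -⟩ := h.glue H
  exact ⟨_, W, pasteIncl 0 0, pasteIncl 1 0,
    (Paste.incl_coh (Nat.lt_succ_self p)).composable_m rfl 0 0, hW 0 0, hW 1 0⟩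

theorem face_gcomp (H : CylHyp.{u}) {p : ℕ} {Φ Ψ : Fun globe.adc.tens.nu X} (h : GComp p Φ Ψ)
    (e : Bool) (i : ℕ) : pull (globeFace e i) (gcomp H p Φ Ψ) =
      if i ≤ p then pull (globeFace e i) (if e then Ψ else Φ)
      else gcomp H p (pull (globeFace e i) Φ) (pull (globeFace e i) Ψ) := by
  obtain ⟨L, W, ψ₀, ψ₁, hc, rfl, rfl⟩ := h.rep H
  rw [gcomp_pull H hc, ← pull_comp, ADC.Mor.face_comp_compMor hc]
  split_ifs with hi he
  · rw [← pull_comp]
  · rw [← pull_comp]
  · rw [← pull_comp, ← pull_comp, gcomp_pull H (hc.face e (not_le.1 hi))]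

/-- Fixed by a collapse. -/
def GBdd (Φ : Fun globe.adc.tens.nu X) : Prop := ∃ N, pull (globeFace false N) Φ = Φ

theorem bdd_pull (e : Bool) (n : ℕ) (Φ : Fun globe.adc.tens.nu X) :
    GBdd (pull (globeFace e n) Φ) :=
  ⟨n, by rw [pull_face_face, if_neg (lt_irrefl n)]⟩

theorem pull_of_le {Φ : Fun globe.adc.tens.nu X} {N M : ℕ}
    (hN : pull (globeFace false N) Φ = Φ) (hM : N ≤ M) (e : Bool) :
    pull (globeFace e M) Φ = Φ := by
  conv_lhs => rw [← hN, pull_face_face, if_neg (show ¬M < N by omega), hN]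

theorem bdd_gcomp (H : CylHyp.{u}) {p : ℕ} {Φ Ψ : Fun globe.adc.tens.nu X} (h : GComp p Φ Ψ)
    (hΦ : GBdd Φ) (hΨ : GBdd Ψ) : GBdd (gcomp H p Φ Ψ) := by
  obtain ⟨N, hN⟩ := hΦ
  obtain ⟨M, hM⟩ := hΨ
  refine ⟨N + M + p + 1, ?_⟩
  rw [face_gcomp H h, if_neg (by omega), pull_of_le hN (by omega), pull_of_le hM (by omega)]

open Classical in
/-- The omega-category of cylinders. -/
abbrev gam (H : CylHyp.{u}) (X : OmCat.{u}) : OmCat.{u} where
  carrier := {Φ : Fun globe.adc.tens.nu X // GBdd Φ}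
  s k Φ := ⟨pull (globeFace false k) Φ.1, bdd_pull _ _ _⟩
  t k Φ := ⟨pull (globeFace true k) Φ.1, bdd_pull _ _ _⟩
  comp k Φ Ψ :=
    if h : GComp k Φ.1 Ψ.1 then ⟨gcomp H k Φ.1 Ψ.1, bdd_gcomp H h Φ.2 Ψ.2⟩ else Φ
  ss i j x := Subtype.ext (by
    change pull _ (pull _ x.1) = pull _ x.1
    rw [pull_face_face]
    split_ifs with h
    · rw [min_eq_left h.le]
    · rw [min_eq_right (not_lt.1 h)])
  st i j x := Subtype.ext (by
    change pull _ (pull _ x.1) = _
    rw [pull_face_face]
    split_ifs <;> rfl)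
  ts i j x := Subtype.ext (by
    change pull _ (pull _ x.1) = _
    rw [pull_face_face]
    split_ifs <;> rfl)
  tt i j x := Subtype.ext (by
    change pull _ (pull _ x.1) = pull _ x.1
    rw [pull_face_face]
    split_ifs with h
    · rw [min_eq_left h.le]
    · rw [min_eq_right (not_lt.1 h)])
  s_comp i n x y e := by
    have h : GComp n x.1 y.1 := congrArg Subtype.val e
    apply Subtype.ext
    rw [dif_pos h]
    change pull _ (gcomp H n x.1 y.1) = _
    rw [face_gcomp H h]
    by_cases hi : i ≤ n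
    · rw [if_pos hi, if_pos hi]
      rfl
    · rw [if_neg hi, if_neg hi, dif_pos]
      obtain ⟨L, W, ψ₀, ψ₁, hc, e₀, e₁⟩ := h.rep H
      show GComp n (pull _ x.1) (pull _ y.1)
      rw [← e₀, ← e₁, ← pull_comp, ← pull_comp]
      exact GComp.of_rep (hc.face false (not_le.1 hi)) W
  t_comp i n x y e := by
    have h : GComp n x.1 y.1 := congrArg Subtype.val e
    apply Subtype.ext
    rw [dif_pos h]
    change pull _ (gcomp H n x.1 y.1) = _
    rw [face_gcomp H h]
    by_cases hi : i ≤ n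
    · rw [if_pos hi, if_pos hi]
      rfl
    · rw [if_neg hi, if_neg hi, dif_pos]
      obtain ⟨L, W, ψ₀, ψ₁, hc, e₀, e₁⟩ := h.rep H
      show GComp n (pull _ x.1) (pull _ y.1)
      rw [← e₀, ← e₁, ← pull_comp, ← pull_comp]
      exact GComp.of_rep (hc.face true (not_le.1 hi)) W
  id_comp n x := by
    have h : GComp n (pull (globeFace false n) x.1) x.1 := by
      show _ = _
      rw [pull_face_face, if_neg (lt_irrefl n)]
    apply Subtype.ext
    rw [dif_pos h]
    change gcomp H n (pull (globeFace false n) x.1) x.1 = x.1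
    have hc : Composable n ((globeFace false n).comp (ADC.Mor.id _)) (ADC.Mor.id globe.adc) := by
      show _ = _
      rw [ADC.Mor.face_face_comp, if_neg (lt_irrefl n)]
    have := gcomp_pull H hc x.1
    rwa [pull_comp, pull_id, ADC.Mor.compMor_id_left, pull_id] at this
  comp_id n x := by
    have h : GComp n x.1 (pull (globeFace true n) x.1) := by
      show _ = _
      rw [pull_face_face, if_neg (lt_irrefl n)]
    apply Subtype.ext
    rw [dif_pos h]
    change gcomp H n x.1 (pull (globeFace true n) x.1) = x.1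
    have hc : Composable n (ADC.Mor.id globe.adc) ((globeFace true n).comp (ADC.Mor.id _)) := by
      show _ = _
      rw [ADC.Mor.face_face_comp, if_neg (lt_irrefl n)]
    have := gcomp_pull H hc x.1
    rwa [pull_comp, pull_id, ADC.Mor.compMor_id_right, pull_id] at this
  assoc n x y z e1 e2 := by
    have h1 : GComp n x.1 y.1 := congrArg Subtype.val e1
    have h2 : GComp n y.1 z.1 := congrArg Subtype.val e2
    obtain ⟨W, hW, -⟩ := Paste.exists_glue H (Nat.lt_succ_self n) Nat.one_pos three_pos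
      (fun (i : Fin 3) (_ : Fin 1) => ![x.1, y.1, z.1] i) fun o => by
        have := Paste.coh_three (v₀ := fun b => x.1.toFun (gT (b, o)))
          (v₁ := fun b => y.1.toFun (gT (b, o))) (v₂ := fun b => z.1.toFun (gT (b, o)))
          (h1.low o) (h1.out o) (h2.low o) (h2.out o)
        refine (show (fun (i : Fin 3) (_ : Fin 1) b => (![x.1, y.1, z.1] i).toFun (gT (b, o))) =
          fun i _ => ![fun b => x.1.toFun (gT (b, o)), fun b => y.1.toFun (gT (b, o)),
            fun b => z.1.toFun (gT (b, o))] i from ?_) ▸ this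
        funext i _ b
        fin_cases i <;> rfl
    have hI := Paste.incl_coh (r := 1) (r' := 3) (Nat.lt_succ_self n)
    have c1 := hI.composable_m (i := 0) (i' := 1) rfl 0 0
    have c2 := hI.composable_m (i := 1) (i' := 2) rfl 0 0
    have hx : pull (pasteIncl 0 0) W = x.1 := hW 0 0
    have hy : pull (pasteIncl 1 0) W = y.1 := hW 1 0
    have hz : pull (pasteIncl 2 0) W = z.1 := hW 2 0
    obtain ⟨c3, c4, he⟩ := ADC.Mor.compMor_assoc c1 c2
    have g1 : gcomp H n x.1 y.1 = pull (compMor n (pasteIncl 0 0) (pasteIncl 1 0)) W := by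
      rw [← hx, ← hy, gcomp_pull H c1]
    have g2 : gcomp H n y.1 z.1 = pull (compMor n (pasteIncl 1 0) (pasteIncl 2 0)) W := by
      rw [← hy, ← hz, gcomp_pull H c2]
    have h3 : GComp n (gcomp H n x.1 y.1) z.1 := by
      rw [g1, ← hz]
      exact GComp.of_rep c3 W
    have h4 : GComp n x.1 (gcomp H n y.1 z.1) := by
      rw [g2, ← hx]
      exact GComp.of_rep c4 W
    apply Subtype.ext
    simp only [dif_pos h1, dif_pos h2, dif_pos h3, dif_pos h4]
    rw [g1, g2, ← hx, ← hz, gcomp_pull H c3, gcomp_pull H c4, he]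
  interchange m n x x' y y' hmn e1 e2 e3 := by
    have h1 : GComp n x.1 x'.1 := congrArg Subtype.val e1
    have h2 : GComp n y.1 y'.1 := congrArg Subtype.val e2
    have h3 : GComp m x.1 y.1 := congrArg Subtype.val e3
    obtain ⟨W, hW, -⟩ := Paste.exists_glue H hmn two_pos two_pos
      (fun (i : Fin 2) (l : Fin 2) => ![![x.1, x'.1], ![y.1, y'.1]] i l) fun o => by
        have := Paste.coh_four hmn (x := fun b => x.1.toFun (gT (b, o)))
          (x' := fun b => x'.1.toFun (gT (b, o))) (y := fun b => y.1.toFun (gT (b, o)))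
          (y' := fun b => y'.1.toFun (gT (b, o)))
          (h1.low o) (h1.out o) (h2.low o) (h2.out o) (h3.low o) (h3.out o)
        refine (show (fun (i : Fin 2) (l : Fin 2) b =>
          (![![x.1, x'.1], ![y.1, y'.1]] i l).toFun (gT (b, o))) =
          fun i l => ![![fun b => x.1.toFun (gT (b, o)), fun b => x'.1.toFun (gT (b, o))],
            ![fun b => y.1.toFun (gT (b, o)), fun b => y'.1.toFun (gT (b, o))]] i l from ?_) ▸ this
        funext i l b
        fin_cases i <;> fin_cases l <;> rfl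
    have hI := Paste.incl_coh (r := 2) (r' := 2) hmn
    have cx := hI.composable_n 0 (l := 0) (l' := 1) rfl
    have cy := hI.composable_n 1 (l := 0) (l' := 1) rfl
    have cm := hI.composable_m (i := 0) (i' := 1) rfl 0 0
    obtain ⟨cm', c1, c2, he⟩ := ADC.Mor.compMor_interchange hmn cx cy cm
    have hx : pull (pasteIncl 0 0) W = x.1 := hW 0 0
    have hx' : pull (pasteIncl 0 1) W = x'.1 := hW 0 1
    have hy : pull (pasteIncl 1 0) W = y.1 := hW 1 0
    have hy' : pull (pasteIncl 1 1) W = y'.1 := hW 1 1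
    have h4 : GComp m x'.1 y'.1 := by rw [← hx', ← hy']; exact GComp.of_rep cm' W
    have g1 : gcomp H n x.1 x'.1 = pull (compMor n (pasteIncl 0 0) (pasteIncl 0 1)) W := by
      rw [← hx, ← hx', gcomp_pull H cx]
    have g2 : gcomp H n y.1 y'.1 = pull (compMor n (pasteIncl 1 0) (pasteIncl 1 1)) W := by
      rw [← hy, ← hy', gcomp_pull H cy]
    have g3 : gcomp H m x.1 y.1 = pull (compMor m (pasteIncl 0 0) (pasteIncl 1 0)) W := by
      rw [← hx, ← hy, gcomp_pull H cm]
    have g4 : gcomp H m x'.1 y'.1 = pull (compMor m (pasteIncl 0 1) (pasteIncl 1 1)) W := by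
      rw [← hx', ← hy', gcomp_pull H cm']
    have h5 : GComp m (gcomp H n x.1 x'.1) (gcomp H n y.1 y'.1) := by
      rw [g1, g2]; exact GComp.of_rep c1 W
    have h6 : GComp n (gcomp H m x.1 y.1) (gcomp H m x'.1 y'.1) := by
      rw [g3, g4]; exact GComp.of_rep c2 W
    apply Subtype.ext
    simp only [dif_pos h1, dif_pos h2, dif_pos h3, dif_pos h4, dif_pos h5, dif_pos h6]
    rw [g1, g2, g3, g4, gcomp_pull H c1, gcomp_pull H c2, he]
  bounded x := x.2.imp fun N hN => Subtype.ext hN

open Classical in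
theorem gam_comp (H : CylHyp.{u}) {p : ℕ} {x y : (gam H X).carrier}
    (h : GComp p x.1 y.1) : ((gam H X).comp p x y).1 = gcomp H p x.1 y.1 := by
  change Subtype.val (dite _ _ _) = _
  rw [dif_pos h]

/-- Postcomposition. -/
def gamMap (H : CylHyp.{u}) (F : Fun X Y) : Fun (gam H X) (gam H Y) where
  toFun Φ := ⟨Φ.1.comp F, Φ.2.imp fun N (hN : pull (globeFace false N) Φ.1 = Φ.1) =>
    show (pull (globeFace false N) Φ.1).comp F = Φ.1.comp F from
      congrArg (fun T : Fun globe.adc.tens.nu X => T.comp F) hN⟩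
  map_s _ _ := Subtype.ext rfl
  map_t _ _ := Subtype.ext rfl
  map_comp n x y e := by
    have h : GComp n x.1 y.1 := congrArg Subtype.val e
    obtain ⟨L, W, ψ₀, ψ₁, hc, e₀, e₁⟩ := h.rep H
    have h' : GComp n (x.1.comp F) (y.1.comp F) :=
      congrArg (fun T : Fun globe.adc.tens.nu X => T.comp F) h
    apply Subtype.ext
    refine (congrArg (fun T : Fun globe.adc.tens.nu X => T.comp F) (gam_comp H h)).trans ?_
    refine Eq.trans ?_ (gam_comp H h').symm
    change (gcomp H n x.1 y.1).comp F = gcomp H n (x.1.comp F) (y.1.comp F)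
    rw [← e₀, ← e₁, gcomp_pull H hc]
    exact (gcomp_pull H hc (W.comp F)).symm

end

end Vale.Agent.P213
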