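import Vale.Agent.P213.Cylinder.Comp
import Vale.Agent.P213.Cylinder.Free

/-!
# P213: gluing functors along pastings

Functors out of the cylinder of a pasting are the same as coherent families of functors out of the
cylinder of the globe; likewise without cylinders.
-/

namespace Vale.Agent.P213

universe u

noncomputable section

/-- What is used about free omega-categories and the order condition. -/
structure CylHyp : Prop extends FreeHyp.{u} where
  simplexGood : Spec.SimplexGood
  tensGood : Spec.TensGood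

/-- Precomposition with a morphism times the interval. -/
def pull {K L : ADC} {X : OmCat.{u}} (ψ : ADC.Mor K L) (W : Fun L.tens.nu X) :
    Fun K.tens.nu X := ψ.tens.map.comp W

theorem pull_comp {K L M : ADC} {X : OmCat.{u}} (φ : ADC.Mor K L) (ψ : ADC.Mor L M)
    (W : Fun M.tens.nu X) : pull (φ.comp ψ) W = pull φ (pull ψ W) := by
  unfold pull
  rw [ADC.Mor.tens_comp, ADC.Mor.map_comp']
  rfl

theorem pull_id {K : ADC} {X : OmCat.{u}} (W : Fun K.tens.nu X) : pull (ADC.Mor.id K) W = W := by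
  unfold pull
  rw [ADC.Mor.tens_id, ADC.Mor.map_id]
  rfl

theorem pull_gT {X : OmCat.{u}} (e : Bool) (n : ℕ) (Φ : Fun globe.adc.tens.nu X) (b : ℕ × Bool)
    (o : Option Bool) :
    (pull (globeFace e n) Φ).toFun (gT (b, o)) = Φ.toFun (gT (collapse e n b, o)) :=
  congrArg Φ.toFun (globeFace_gT e n b o)

theorem pull_face_face {X : OmCat.{u}} (e e' : Bool) (i j : ℕ) (Φ : Fun globe.adc.tens.nu X) :
    pull (globeFace e i) (pull (globeFace e' j) Φ) =
      if i < j then pull (globeFace e i) Φ else pull (globeFace e' j) Φ := by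
  rw [← pull_comp, globeFace_comp]
  split_ifs <;> rfl

namespace Paste

variable {m n r r' : ℕ}

theorem exists_glue (H : CylHyp.{u}) {X : OmCat.{u}} (hmn : m < n) (hr : 0 < r) (hr' : 0 < r')
    (Φ : Fin r' → Fin r → Fun globe.adc.tens.nu X)
    (h : ∀ o, Coh m n fun i l b => (Φ i l).toFun (gT (b, o))) :
    ∃! W : Fun (pasting m n r r').adc.tens.nu X, ∀ i l, pull (pasteIncl i l) W = Φ i l := by
  have hG := H.tensGood _ globe_good
  have hK := H.tensGood _ (pasting_good m n r r')
  obtain ⟨W, hW, hu⟩ := ADC.glueFam H.toFreeHyp hG hK (ι := Fin r' × Fin r)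
    (fun il => (pasteIncl il.1 il.2).tens)
    (fun il b => (at' il.1 il.2 b.1.1 b.1.2, b.2))
    (fun il b p hp => (pasteIncl il.1 il.2).tens_atom globe_hd (pasting_good m n r r').hd
      (globe.isAtom_atom b.1) (incl_atom il.1 il.2 b.1) b.2 hp)
    (fun il b => by
      change Paste.deg (at' il.1 il.2 b.1.1 b.1.2) + _ = b.1.1 + _
      rw [deg_at])
    (fun b => by
      obtain ⟨i, l, j, a, e⟩ := at_surj hmn hr hr' b.1
      exact ⟨(i, l), ((j, a), b.2), Prod.ext e rfl⟩)
    (fun il => Φ il.1 il.2)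
    (fun i j b b' p p' e hp hp' => by
      obtain ⟨⟨k, a⟩, o⟩ := b
      obtain ⟨⟨k', a'⟩, o'⟩ := b'
      obtain rfl : o = o' := congrArg Prod.snd e
      rw [hp.eq (isAtom_gT _), hp'.eq (isAtom_gT _)]
      exact (h o).at_eq hmn (congrArg Prod.fst e))
  exact ⟨W, fun i l => hW (i, l), fun W' hW' => hu W' fun il => hW' il.1 il.2⟩

theorem exists_glue_plain (H : CylHyp.{u}) {X : OmCat.{u}} (hmn : m < n) (hr : 0 < r)
    (hr' : 0 < r') (Φ : Fin r' → Fin r → Fun globe.adc.nu X)
    (h : Coh m n fun i l b => (Φ i l).toFun (globe.atom b)) :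
    ∃! D : Fun (pasting m n r r').adc.nu X, ∀ i l, (pasteIncl i l).map.comp D = Φ i l := by
  obtain ⟨D, hD, hu⟩ := ADC.glueFam H.toFreeHyp globe_good (pasting_good m n r r')
    (ι := Fin r' × Fin r) (fun il => pasteIncl il.1 il.2)
    (fun il b => at' il.1 il.2 b.1 b.2)
    (fun il b p hp => by rw [hp.eq (globe.isAtom_atom b)]; exact incl_atom il.1 il.2 b)
    (fun il b => deg_at il.1 il.2 b.1 b.2)
    (fun b => by
      obtain ⟨i, l, j, a, e⟩ := at_surj hmn hr hr' b
      exact ⟨(i, l), (j, a), e⟩)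
    (fun il => Φ il.1 il.2)
    (fun i j b b' p p' e hp hp' => by
      rw [hp.eq (globe.isAtom_atom _), hp'.eq (globe.isAtom_atom _)]
      exact h.at_eq hmn e)
  exact ⟨D, fun i l => hD (i, l), fun D' hD' => hu D' fun il => hD' il.1 il.2⟩

theorem coh_two {V : Type*} {p : ℕ} {v₀ v₁ : ℕ × Bool → V}
    (hlo : ∀ j a, j < p → v₀ (j, a) = v₁ (j, a)) (hout : v₀ (p, true) = v₁ (p, false)) :
    Coh p (p + 1) fun (i : Fin 2) (_ : Fin 1) => ![v₀, v₁] i := by
  refine ⟨fun i i' _ _ j a hj => ?_, fun i i' hi _ _ => ?_, fun _ _ _ _ _ _ => rfl,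
    fun _ l l' hl => absurd hl (by omega)⟩
  · fin_cases i <;> fin_cases i' <;> simp [hlo j a hj]
  · fin_cases i <;> fin_cases i' <;> simp_all

theorem coh_three {V : Type*} {p : ℕ} {v₀ v₁ v₂ : ℕ × Bool → V}
    (hlo : ∀ j a, j < p → v₀ (j, a) = v₁ (j, a)) (hout : v₀ (p, true) = v₁ (p, false))
    (hlo' : ∀ j a, j < p → v₁ (j, a) = v₂ (j, a)) (hout' : v₁ (p, true) = v₂ (p, false)) :
    Coh p (p + 1) fun (i : Fin 3) (_ : Fin 1) => ![v₀, v₁, v₂] i := by
  refine ⟨fun i i' _ _ j a hj => ?_, fun i i' hi _ _ => ?_, fun _ _ _ _ _ _ => rfl,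
    fun _ l l' hl => absurd hl (by omega)⟩
  · fin_cases i <;> fin_cases i' <;> simp [hlo j a hj, hlo' j a hj]
  · fin_cases i <;> fin_cases i' <;> simp_all

theorem coh_four {V : Type*} {m n : ℕ} (hmn : m < n) {x x' y y' : ℕ × Bool → V}
    (hx : ∀ j a, j < n → x (j, a) = x' (j, a)) (hxi : x (n, true) = x' (n, false))
    (hy : ∀ j a, j < n → y (j, a) = y' (j, a)) (hyi : y (n, true) = y' (n, false))
    (hlo : ∀ j a, j < m → x (j, a) = y (j, a)) (hout : x (m, true) = y (m, false)) :
    Coh m n fun (i : Fin 2) (l : Fin 2) => ![![x, x'], ![y, y']] i l := by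
  refine ⟨fun i i' l l' j a hj => ?_, fun i i' hi l l' => ?_, fun i l l' j a hj => ?_,
    fun i l l' hl => ?_⟩
  · have h1 := hx j a (by omega)
    have h2 := hy j a (by omega)
    have h3 := hlo j a hj
    fin_cases i <;> fin_cases i' <;> fin_cases l <;> fin_cases l' <;> simp_all
  · have h1 := hx m true hmn
    have h2 := hy m false hmn
    fin_cases i <;> fin_cases i' <;> fin_cases l <;> fin_cases l' <;> simp_all
  · have h1 := hx j a hj
    have h2 := hy j a hj
    fin_cases i <;> fin_cases l <;> fin_cases l' <;> simp_all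
  · fin_cases i <;> fin_cases l <;> fin_cases l' <;> simp_all

end Paste

end

end Vale.Agent.P213
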