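import Vale.Agent.P213.Cylinder.Mor
import Vale.Agent.P213.SSet.SpecBasic

/-!
# P213: the Alexander-Whitney morphism and the homotopy of the ends of a cylinder

A map of the simplex to the interval gives a morphism of the simplex into its cylinder, natural in
the simplex. Natural families of functors out of the cylinders of simplices give homotopies.
-/

namespace Vale.Agent.P213

open CategoryTheory MonoidalCategory CartesianMonoidalCategory Simplicial Opposite SSet

universe u

noncomputable section

namespace AW

variable {m : ℕ}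

/-- A set of vertices over a position of the interval, zero if it is empty. -/
def cN (o : Option Bool) (t : Finset (Fin (m + 1))) :
    (simplexADC m).B × Option Bool →₀ ℕ :=
  if h : t.Nonempty then Finsupp.single (⟨t, h⟩, o) 1 else 0

/-- The same as an integral chain. -/
def cZ (o : Option Bool) (t : Finset (Fin (m + 1))) :
    (simplexADC m).B × Option Bool →₀ ℤ :=
  if h : t.Nonempty then Finsupp.single (⟨t, h⟩, o) 1 else 0

theorem toZ_cN (o : Option Bool) (t : Finset (Fin (m + 1))) :
    (simplexADC m).tens.toZ (cN o t) = cZ o t := by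
  unfold cN cZ
  split_ifs <;> simp [ADC.toZ]

/-- The sign of a face. -/
def sgn (t : Finset (Fin (m + 1))) (a : Fin (m + 1)) : ℤ := (-1) ^ (t.filter (· < a)).card

theorem bd_cN (o : Option Bool) (t : Finset (Fin (m + 1))) :
    (simplexADC m).tens.bd (cN o t) = (∑ a ∈ t, sgn t a • cZ o (t.erase a)) +
      if o = none then (-1 : ℤ) ^ (t.card - 1) • (cZ (some true) t - cZ (some false) t) else 0 := by
  by_cases h : t.Nonempty
  · rw [cN, dif_pos h, ADC.bd_single, one_smul, ADC.tens_d]
    refine congrArg₂ (· + ·) ?_ ?_
    · rw [map_sum]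
      refine Finset.sum_congr rfl fun a _ => ?_
      unfold cZ
      split_ifs
      · rw [ADC.emb_single, Finsupp.smul_single, smul_eq_mul, mul_one]
        rfl
      · simp
    · simp [ADC.edgeTerm, cZ, dif_pos h, ADC.emb_single]
  · rw [Finset.not_nonempty_iff_eq_empty] at h
    subst h
    simp [cN, cZ, ADC.bd_zero]

variable (f : Fin (m + 1) →o Fin 2)

/-- The vertices over the end. -/
def upper (t : Finset (Fin (m + 1))) : Finset (Fin (m + 1)) := t.filter fun a => f a = 1

/-- The vertices over the start. -/
def lower (t : Finset (Fin (m + 1))) : Finset (Fin (m + 1)) := t.filter fun a => ¬f a = 1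

/-- The value on a set of vertices. -/
def val (t : Finset (Fin (m + 1))) : (simplexADC m).B × Option Bool →₀ ℕ :=
  cN (some (decide (upper f t).Nonempty)) t +
    if (upper f t).card = 1 then cN none (lower f t) else 0

/-- The same as an integral chain. -/
def valZ (t : Finset (Fin (m + 1))) : (simplexADC m).B × Option Bool →₀ ℤ :=
  cZ (some (decide (upper f t).Nonempty)) t +
    if (upper f t).card = 1 then cZ none (lower f t) else 0

theorem toZ_val (t : Finset (Fin (m + 1))) : (simplexADC m).tens.toZ (val f t) = valZ f t := by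
  unfold val valZ
  rw [ADC.toZ_add, toZ_cN]
  split_ifs
  · rw [toZ_cN]
  · simp [ADC.toZ]

theorem mem_lt {t : Finset (Fin (m + 1))} {a b : Fin (m + 1)} (ha : a ∈ lower f t)
    (hb : b ∈ upper f t) : a < b := by
  by_contra h
  have h1 := f.monotone (not_lt.1 h)
  simp only [lower, upper, Finset.mem_filter] at ha hb
  rw [hb.2] at h1
  exact ha.2 (by omega)

theorem sgn_lower {t : Finset (Fin (m + 1))} {a : Fin (m + 1)} (ha : a ∈ lower f t) :
    sgn (lower f t) a = sgn t a := by
  unfold sgn
  congr 2
  ext x
  simp only [Finset.mem_filter, lower]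
  refine ⟨fun h => ⟨h.1.1, h.2⟩, fun h => ⟨⟨h.1, fun hx => ?_⟩, h.2⟩⟩
  exact lt_asymm h.2 (mem_lt f ha (by simp [upper, h.1, hx]))

theorem key (t : Finset (Fin (m + 1))) :
    (simplexADC m).tens.bd (val f t) = ∑ a ∈ t, sgn t a • valZ f (t.erase a) := by
  have split : ∀ g : Fin (m + 1) → ((simplexADC m).B × Option Bool →₀ ℤ),
      ∑ a ∈ t, g a = ∑ a ∈ upper f t, g a + ∑ a ∈ lower f t, g a :=
    fun g => (Finset.sum_filter_add_sum_filter_not t _ g).symm
  have eU : ∀ a, upper f (t.erase a) = (upper f t).erase a :=
    fun a => Finset.filter_erase _ _ _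
  have eL : ∀ a, lower f (t.erase a) = (lower f t).erase a :=
    fun a => Finset.filter_erase _ _ _
  have nU : ∀ a ∈ lower f t, (upper f t).erase a = upper f t := fun a ha =>
    Finset.erase_eq_of_notMem fun hb => lt_irrefl _ (mem_lt f ha hb)
  have nL : ∀ a ∈ upper f t, (lower f t).erase a = lower f t := fun a ha =>
    Finset.erase_eq_of_notMem fun hb => lt_irrefl _ (mem_lt f hb ha)
  unfold val valZ
  rw [ADC.bd_add, bd_cN, if_neg (Option.some_ne_none _), add_zero, split, split]
  simp only [eU, eL]
  have hL : ∀ (c : Bool), decide (upper f t).Nonempty = c →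
      ∑ a ∈ lower f t, sgn t a • (cZ (some (decide ((upper f t).erase a).Nonempty)) (t.erase a) +
        if ((upper f t).erase a).card = 1 then cZ none ((lower f t).erase a) else 0) =
      ∑ a ∈ lower f t, sgn t a • cZ (some c) (t.erase a) +
        if (upper f t).card = 1 then
          ∑ a ∈ lower f t, sgn (lower f t) a • cZ none ((lower f t).erase a) else 0 := by
    intro c hc
    split_ifs with h1
    · rw [← Finset.sum_add_distrib]
      refine Finset.sum_congr rfl fun a ha => ?_
      simp only [nU a ha, hc, h1, if_true, sgn_lower f ha, smul_add]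
    · rw [add_zero]
      refine Finset.sum_congr rfl fun a ha => ?_
      simp only [nU a ha, hc, h1, if_false, add_zero]
  rw [hL _ rfl]
  obtain h0 | h1 | h2 : (upper f t).card = 0 ∨ (upper f t).card = 1 ∨ 2 ≤ (upper f t).card := by
    omega
  · rw [Finset.card_eq_zero.1 h0]
    simp [ADC.bd_zero]
  · obtain ⟨h, hh⟩ := Finset.card_eq_one.1 h1
    have hmem : h ∈ upper f t := by simp [hh]
    have ht : t.erase h = lower f t := by
      ext x
      have : x ∈ upper f t ↔ x = h := by simp [hh]
      simp only [upper, Finset.mem_filter] at this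
      simp only [lower, Finset.mem_filter, Finset.mem_erase]
      constructor
      · exact fun hx => ⟨hx.2, fun e => hx.1 (this.1 ⟨hx.2, e⟩)⟩
      · exact fun hx => ⟨fun e => hx.2 (this.2 e).2, hx.1⟩
    have hs : sgn t h = (-1) ^ (lower f t).card := by
      unfold sgn
      congr 2
      ext x
      simp only [Finset.mem_filter]
      constructor
      · intro hx
        rw [← ht]
        exact Finset.mem_erase.2 ⟨hx.2.ne, hx.1⟩
      · intro hx
        exact ⟨(Finset.mem_filter.1 hx).1, mem_lt f hx hmem⟩
    rw [if_pos h1, if_pos h1, bd_cN, if_pos rfl, hh, Finset.sum_singleton, Finset.sum_singleton]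
    simp only [Finset.singleton_nonempty, decide_true, Finset.erase_singleton, ht, hs]
    simp only [Finset.not_nonempty_empty, decide_false, Finset.card_empty, zero_ne_one, if_false,
      add_zero]
    rcases (lower f t).eq_empty_or_nonempty with e | e
    · simp [e, cZ]
    · obtain ⟨k, hk⟩ : ∃ k, (lower f t).card = k + 1 := ⟨_, (Nat.succ_pred_eq_of_pos e.card_pos).symm⟩
      rw [hk, Nat.add_sub_cancel, pow_succ, mul_neg, mul_one]
      module
  · have hne : (upper f t).Nonempty := Finset.card_pos.1 (by omega)
    rw [if_neg (by omega), if_neg (by omega), ADC.bd_zero, decide_eq_true hne]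
    simp only [add_zero, smul_add, Finset.sum_add_distrib]
    have he : ∀ a ∈ upper f t, ((upper f t).erase a).Nonempty := fun a ha =>
      Finset.card_pos.1 (by rw [Finset.card_erase_of_mem ha]; omega)
    have hsum : ∑ a ∈ upper f t,
        sgn t a • cZ (some (decide ((upper f t).erase a).Nonempty)) (t.erase a) =
        ∑ a ∈ upper f t, sgn t a • cZ (some true) (t.erase a) :=
      Finset.sum_congr rfl fun a ha => by rw [decide_eq_true (he a ha)]
    rw [hsum]
    suffices ∑ a ∈ upper f t, sgn t a •
        (if ((upper f t).erase a).card = 1 then cZ none ((lower f t).erase a) else 0) = 0 by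
      rw [this, add_zero]
    by_cases h3 : (upper f t).card = 2
    · obtain ⟨x, y, hxy, he'⟩ : ∃ x y, x < y ∧ upper f t = {x, y} := by
        obtain ⟨x, y, hxy, he'⟩ := Finset.card_eq_two.1 h3
        rcases lt_or_gt_of_ne hxy with h | h
        · exact ⟨x, y, h, he'⟩
        · exact ⟨y, x, h, he'.trans (Finset.pair_comm x y)⟩
      have hx : x ∈ upper f t := by simp [he']
      have hy : y ∈ upper f t := by simp [he']
      have hs : sgn t y = -sgn t x := by
        have e : t.filter (· < y) = insert x (t.filter (· < x)) := by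
          ext z
          simp only [Finset.mem_filter, Finset.mem_insert]
          constructor
          · rintro ⟨hz, hzy⟩
            rcases lt_trichotomy z x with h | h | h
            · exact Or.inr ⟨hz, h⟩
            · exact Or.inl h
            · exfalso
              have hzu : z ∈ upper f t := by
                by_contra hn
                exact lt_asymm h (mem_lt f (by simpa [lower, upper, hz] using hn) hx)
              rw [he'] at hzu
              simp at hzu
              rcases hzu with rfl | rfl <;> exact lt_irrefl _ (by assumption)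
          · rintro (rfl | ⟨hz, h⟩)
            · exact ⟨(Finset.mem_filter.1 hx).1, hxy⟩
            · exact ⟨hz, h.trans hxy⟩
        rw [sgn, sgn, e, Finset.card_insert_of_notMem (by simp), pow_succ, mul_neg, mul_one]
      rw [Finset.sum_congr (g := fun a => sgn t a • cZ none (lower f t)) rfl fun a ha => by
        rw [if_pos (by rw [Finset.card_erase_of_mem ha, h3]), nL a ha]]
      rw [he', Finset.sum_pair hxy.ne, hs, neg_smul, add_neg_cancel]
    · refine Finset.sum_eq_zero fun a ha => ?_
      rw [if_neg (by rw [Finset.card_erase_of_mem ha]; omega), smul_zero]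

theorem pushN_cN {a b : ℕ} (φ : Fin (a + 1) →o Fin (b + 1)) (o : Option Bool)
    (t : Finset (Fin (a + 1))) :
    ADC.pushN (simplexMor φ).tens.f (cN o t) =
      if (t.image φ).card = t.card then cN o (t.image φ) else 0 := by
  by_cases h : t.Nonempty
  · rw [cN, dif_pos h]
    refine (ADC.pushN_single_one (simplexMor φ).tens.f (⟨t, h⟩, o)).trans ?_
    change ADC.emb o (imageBasis φ ⟨t, h⟩) = _
    unfold imageBasis
    split_ifs
    · rw [cN, dif_pos (h.image φ), ADC.emb_single]
    · exact map_zero _
  · rw [Finset.not_nonempty_iff_eq_empty] at h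
    subst h
    simp [cN]

end AW

variable {m : ℕ}

/-- The Alexander-Whitney morphism of a map to the interval. -/
def awMor (f : Fin (m + 1) →o Fin 2) : ADC.Mor (simplexADC m) (simplexADC m).tens where
  f s := AW.val f s.1
  deg_eq s t ht := by
    have hc : ∀ (o : Option Bool) (v : Finset (Fin (m + 1))), AW.cN o v t ≠ 0 →
        t.2 = o ∧ t.1.1 = v := by
      intro o v hv
      unfold AW.cN at hv
      split_ifs at hv with h
      · obtain ⟨rfl, -⟩ := Finsupp.single_apply_ne_zero.1 hv
        exact ⟨rfl, rfl⟩
      · simp at hv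
    unfold AW.val at ht
    simp only [Finsupp.add_apply, ne_eq, Nat.add_eq_zero_iff, not_and_or] at ht
    change t.1.1.card - 1 + _ = s.1.card - 1
    rcases ht with ht | ht
    · obtain ⟨h1, h2⟩ := hc _ _ ht
      simp [h1, h2]
    · split_ifs at ht with h
      · obtain ⟨h1, h2⟩ := hc _ _ ht
        have := Finset.card_filter_add_card_filter_not (s := s.1) (fun a => f a = 1)
        have hp := Finset.card_pos.2 t.1.2
        change (AW.upper f s.1).card + (AW.lower f s.1).card = _ at this
        rw [if_pos h1, h2] at *
        omega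
      · simp at ht
  aug s hs := by
    change s.1.card - 1 = 0 at hs
    obtain ⟨v, hv⟩ := Finset.card_eq_one.1 (show s.1.card = 1 by
      have := Finset.card_pos.2 s.2
      omega)
    by_cases h : f v = 1 <;>
      simp [AW.val, AW.cN, AW.upper, AW.lower, hv, h, Finset.filter_singleton]
  comm s := by
    rw [AW.key]
    have hd : (simplexADC m).d s = ∑ a ∈ s.1, if h : (s.1.erase a).Nonempty then
        Finsupp.single ⟨s.1.erase a, h⟩ (AW.sgn s.1 a) else 0 := rfl
    rw [hd]
    rw [map_sum]
    refine Finset.sum_congr rfl fun a _ => ?_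
    split_ifs with h
    · refine Eq.symm ((ADC.pushZ_single _ _ _).trans ?_)
      rw [AW.toZ_val]
    · rw [map_zero, Finset.not_nonempty_iff_eq_empty.1 h]
      simp [AW.valZ, AW.cZ, AW.upper]

theorem awMor_naturality {a b : ℕ} (φ : Fin (a + 1) →o Fin (b + 1)) (f : Fin (b + 1) →o Fin 2) :
    (simplexMor φ).comp (awMor f) = (awMor (f.comp φ)).comp (simplexMor φ).tens := by
  refine ADC.Mor.ext fun s => ?_
  change ADC.pushN (awMor f).f (imageBasis φ s) =
    ADC.pushN (simplexMor φ).tens.f (AW.val (f.comp φ) s.1)
  have eU : AW.upper f (s.1.image φ) = (AW.upper (f.comp φ) s.1).image φ := Finset.filter_image ..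
  have eL : AW.lower f (s.1.image φ) = (AW.lower (f.comp φ) s.1).image φ := Finset.filter_image ..
  have cs := Finset.card_filter_add_card_filter_not (s := s.1) (fun a => f (φ a) = 1)
  have ci := Finset.card_filter_add_card_filter_not (s := s.1.image φ) (fun a => f a = 1)
  change (AW.upper (f.comp φ) s.1).card + (AW.lower (f.comp φ) s.1).card = _ at cs
  change (AW.upper f (s.1.image φ)).card + (AW.lower f (s.1.image φ)).card = _ at ci
  rw [eU, eL] at ci
  have l1 := Finset.card_image_le (f := φ) (s := AW.upper (f.comp φ) s.1)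
  have l2 := Finset.card_image_le (f := φ) (s := AW.lower (f.comp φ) s.1)
  rw [AW.val, map_add, AW.pushN_cN, apply_ite (ADC.pushN (simplexMor φ).tens.f), AW.pushN_cN,
    map_zero]
  unfold imageBasis
  by_cases h : (s.1.image φ).card = s.1.card
  · rw [if_pos h, if_pos h]
    refine (ADC.pushN_single_one (awMor f).f (⟨_, s.2.image φ⟩ : (simplexADC b).B)).trans ?_
    change AW.val f (s.1.image φ) = _
    have d1 : ((AW.upper (f.comp φ) s.1).image φ).card = (AW.upper (f.comp φ) s.1).card := by omega
    have d2 : ((AW.lower (f.comp φ) s.1).image φ).card = (AW.lower (f.comp φ) s.1).card := by omega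
    simp only [AW.val, eU, eL, d1, d2, if_true, Finset.image_nonempty]
  · rw [if_neg h, if_neg h, map_zero, zero_add]
    split_ifs with h1 h2
    · exfalso
      have := (Finset.card_pos.1 (by omega : 0 < (AW.upper (f.comp φ) s.1).card)).image φ
      have := Finset.card_pos.2 this
      omega
    · rfl
    · rfl

theorem awMor_const (e : Bool) (f : Fin (m + 1) →o Fin 2) (hf : ∀ a, f a = if e then 1 else 0) :
    awMor f = ADC.Mor.incl (simplexADC m) e := by
  refine ADC.Mor.ext fun s => ?_
  have hne := s.2
  change AW.val f s.1 = Finsupp.single (s, some e) 1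
  cases e <;> simp only [Bool.false_eq_true, if_false, if_true] at hf <;>
    simp [AW.val, AW.upper, AW.lower, hf, AW.cN, hne]

/-- Natural functors out of the cylinders of simplices give a homotopy of the ends. -/
theorem htpic_of_cyl {n : ℕ∞} (X Y : NCat.{u} n) (p q : X ⟶ Y)
    (U : ∀ m, Fun (oriental m) X.obj → Fun (simplexADC m).tens.nu Y.obj)
    (nat : ∀ {a b} (θ : Fin (a + 1) →o Fin (b + 1)) σ,
      U a ((orientalMap θ).comp σ) = (simplexMor θ).tens.map.comp (U b σ))
    (h0 : ∀ m σ, (ADC.Mor.incl _ false).map.comp (U m σ) = σ.comp p.hom)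
    (h1 : ∀ m σ, (ADC.Mor.incl _ true).map.comp (U m σ) = σ.comp q.hom) :
    Spec.Htpic ((nerveN n).map p) ((nerveN n).map q) := by
  let H : (nerveN n).obj X ⊗ (Δ[1] : SSet.{u}) ⟶ (nerveN n).obj Y :=
    { app := fun k => TypeCat.ofHom fun z =>
        (awMor (stdSimplex.asOrderHom (z.2 : Δ[1].obj k))).map.comp (U k.unop.len z.1)
      naturality := fun k k' θ => by
        ext z
        change (awMor ((stdSimplex.asOrderHom (z.2 : Δ[1].obj k)).comp θ.unop.toOrderHom)).map.comp
            (U k'.unop.len ((orientalMap θ.unop.toOrderHom).comp z.1)) =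
          (orientalMap θ.unop.toOrderHom).comp
            ((awMor (stdSimplex.asOrderHom (z.2 : Δ[1].obj k))).map.comp (U k.unop.len z.1))
        rw [nat θ.unop.toOrderHom z.1, ← simplexMor_map]
        have := congrArg (fun φ : ADC.Mor _ _ => φ.map)
          (awMor_naturality θ.unop.toOrderHom (stdSimplex.asOrderHom (z.2 : Δ[1].obj k)))
        simp only [ADC.Mor.map_comp'] at this
        exact (congrArg (fun F => Fun.comp F (U k.unop.len z.1)) this).symm }
  refine Relation.EqvGen.rel _ _ (SSetH.Htp.homotopy ⟨H, ?_, ?_⟩) <;> ext k σ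
  · refine (congrArg (fun φ : ADC.Mor _ _ => φ.map.comp (U k.unop.len σ))
      (awMor_const false _ fun a => ?_)).trans (h0 _ σ)
    rfl
  · refine (congrArg (fun φ : ADC.Mor _ _ => φ.map.comp (U k.unop.len σ))
      (awMor_const true _ fun a => ?_)).trans (h1 _ σ)
    rfl

end

end Vale.Agent.P213
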