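import Vale.Agent.P213.Cylinder.Transpose
import Vale.Agent.P213.Cylinder.Const
import Vale.Agent.P213.Cylinder.Homotopy
import Vale.Agent.P213.Steiner.Atom
import Vale.Agent.P213.Steiner.Free
import Vale.Agent.P213.Steiner.Glue
import Vale.Agent.P213.Steiner.Simplex
import Vale.Agent.P213.Steiner.Tens

/-!
# P213: cylinders of cells receive chain homotopies between simplices
-/

namespace Vale.Agent.P213

open CategoryTheory

universe u

noncomputable section

theorem cylHyp : CylHyp.{u} where
  atom := atomCell
  zero := freeZero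
  succ := freeSucc
  ext := freeExt
  glue := freeGlue
  zero0 := freeZero
  succ0 := freeSucc
  simplexGood := simplexGood
  tensGood := tensGood

namespace Cyl

variable (n : ℕ∞)

/-- Cylinders, as a functor on `n`-categories. -/
def obj : NCat.{u} n ⥤ NCat.{u} n where
  obj X := ⟨gam cylHyp X.obj, gam_isNCat cylHyp X.property⟩
  map F := ObjectProperty.homMk (gamMap cylHyp F.hom)
  map_id _ := rfl
  map_comp _ _ := rfl

/-- An end of the cylinders. -/
def endNat (o : Bool) : obj.{u} n ⟶ 𝟭 _ where
  app X := ObjectProperty.homMk (endFun cylHyp X.obj o)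
  naturality _ _ F := ObjectProperty.hom_ext _ (endFun_nat cylHyp F.hom o)

/-- Constant cylinders. -/
def cstNat : 𝟭 (NCat.{u} n) ⟶ obj n where
  app X := ObjectProperty.homMk (constFun cylHyp X.obj)
  naturality _ _ F := ObjectProperty.hom_ext _ (constFun_nat cylHyp F.hom).symm

theorem cst_end (o : Bool) : cstNat.{u} n ≫ endNat n o = 𝟙 _ := by
  refine NatTrans.ext (funext fun X => ?_)
  apply ObjectProperty.hom_ext
  refine Fun.ext fun (x : X.obj.carrier) => ?_
  change endVal o ((constFun cylHyp X.obj).toFun x) = x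
  obtain ⟨N, hN⟩ := X.obj.bounded x
  rw [endVal_eq o _ (N := N) (by
    show pull _ (constPart cylHyp x) = constPart cylHyp x
    rw [face_constPart, if_neg Bool.false_ne_true, hN]), constFun_apply]
  change (cellFun cylHyp x).toFun ((ADC.Mor.proj globe.adc).cell
    ((ADC.Mor.incl globe.adc o).cell (globe.atom (N, false)))) = x
  rw [← ADC.Mor.cell_comp, ADC.Mor.incl_proj]
  refine (congrArg (cellFun cylHyp x).toFun
    (congrArg (fun T : Fun globe.adc.nu globe.adc.nu => T.toFun (globe.atom (N, false)))
      (ADC.Mor.map_id (K := globe.adc)))).trans ?_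
  exact (cellFun_atom cylHyp x (N, false)).trans hN

/-- The functor to cylinders of a homotopy. -/
def hmap {X : OmCat.{u}} {a b : ℕ} (D : CylData a b) (σ : Fun (oriental b) X) :
    Fun (oriental a) (gam cylHyp X) :=
  gamLift cylHyp (simplexGood a) (D.mor.map.comp σ)

end Cyl

theorem CylData.pushN_morF_none {a b : ℕ} (D : CylData a b) (z : (simplexADC a).B →₀ ℕ) :
    ADC.pushN (K := (simplexADC a).tens) (L := simplexADC b) D.morF (ADC.emb none z) =
      extN D.h z := by
  have e : ∀ z, ADC.pushN (K := simplexADC a) (L := simplexADC b) D.h z = extN D.h z :=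
    fun z => Finsupp.liftAddHom_apply _ z
  rw [← e]
  refine DFunLike.congr_fun (f := (ADC.pushN (K := (simplexADC a).tens) (L := simplexADC b)
    D.morF).comp (ADC.emb none)) (g := ADC.pushN (K := simplexADC a) (L := simplexADC b) D.h)
    (Finsupp.addHom_ext fun c r => ?_) z
  rw [AddMonoidHom.comp_apply, ADC.emb_single, ADC.pushN_single, ADC.pushN_single]
  rfl

theorem simplexMor_comp {a b c : ℕ} (f : Fin (a + 1) →o Fin (b + 1))
    (g : Fin (b + 1) →o Fin (c + 1)) :
    (simplexMor f).comp (simplexMor g) = simplexMor (g.comp f) :=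
  ADC.Mor.ext fun s => (Finsupp.liftAddHom_apply _ _).trans (imageChain_imageBasis f g s)

theorem CylData.mor_natural {a b a' b' : ℕ} (D : CylData a b) (D' : CylData a' b')
    (θ : Fin (a' + 1) →o Fin (a + 1)) (φ : Fin (b' + 1) →o Fin (b + 1))
    (hf : D.f.comp θ = φ.comp D'.f) (hg : D.g.comp θ = φ.comp D'.g)
    (hh : ∀ c, extN D.h (imageBasis θ c) = imageChain φ (D'.h c)) :
    (simplexMor θ).tens.comp D.mor = D'.mor.comp (simplexMor φ) := by
  refine ADC.Mor.ext fun p => ?_
  obtain ⟨c, _ | e⟩ := p
  · refine (D.pushN_morF_none (imageBasis θ c)).trans ((hh c).trans ?_)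
    exact (Finsupp.liftAddHom_apply (M := ℕ) (N := (simplexADC b).B →₀ ℕ)
      (fun t => (smulAddHom ℕ _).flip (imageBasis φ t)) (D'.h c)).symm
  · have key : (ADC.Mor.incl _ e).comp ((simplexMor θ).tens.comp D.mor) =
        (ADC.Mor.incl _ e).comp (D'.mor.comp (simplexMor φ)) := by
      rw [← ADC.Mor.comp_assoc, ADC.Mor.incl_tens, ADC.Mor.comp_assoc, D.incl_mor,
        ← ADC.Mor.comp_assoc, D'.incl_mor, simplexMor_comp, simplexMor_comp]
      cases e
      · exact congrArg simplexMor hf
      · exact congrArg simplexMor hg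
    have := congrArg (fun ψ : ADC.Mor (simplexADC a') (simplexADC b) => ψ.f c) key
    exact (ADC.pushN_single_one ((simplexMor θ).tens.comp D.mor).f (c, some e)).symm.trans
      (this.trans (ADC.pushN_single_one (D'.mor.comp (simplexMor φ)).f (c, some e)))

/-- Cylinders of cells with homotopic ends receive the chain homotopies between simplices. -/
theorem cylinder (n : ℕ∞) : Spec.Cylinder.{u} n := by
  refine ⟨Cyl.obj n, Cyl.endNat n false, Cyl.endNat n true, Cyl.cstNat n, Cyl.cst_end n false,
    Cyl.cst_end n true, fun X => ?_, fun X {a b} D σ => Cyl.hmap D σ, fun X a b D σ => ?_,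
    fun X Y F a b D σ => ?_, fun X a b a' b' D D' θ φ hf hg hh σ => ?_,
    fun X a b D σ hfg hh => ?_⟩
  · refine htpic_of_cyl _ X _ _ (fun m σ => transpose cylHyp (simplexGood m) σ) ?_
      (fun m σ => transpose_end cylHyp (simplexGood m) σ false)
      (fun m σ => transpose_end cylHyp (simplexGood m) σ true)
    intro a b θ σ
    rw [← simplexMor_map]
    exact transpose_nat cylHyp (simplexGood a) (simplexGood b) (simplexMor θ) σ
  · constructor <;> change (Cyl.hmap D σ).comp (endFun cylHyp X.obj _) = _ <;>
      rw [Cyl.hmap, gamLift_end, ← simplexMor_map]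
    · rw [show simplexMor D.f = (ADC.Mor.incl _ false).comp D.mor from (D.incl_mor false).symm,
        ADC.Mor.map_comp']
      rfl
    · rw [show simplexMor D.g = (ADC.Mor.incl _ true).comp D.mor from (D.incl_mor true).symm,
        ADC.Mor.map_comp']
      rfl
  · exact gamLift_map cylHyp (simplexGood a) (D.mor.map.comp σ) F.hom
  · change (orientalMap θ).comp (gamLift cylHyp (simplexGood a) (D.mor.map.comp σ)) =
      gamLift cylHyp (simplexGood a') (D'.mor.map.comp ((orientalMap φ).comp σ))
    rw [← simplexMor_map, ← simplexMor_map, ← gamLift_pull]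
    refine congrArg (gamLift cylHyp (simplexGood a')) ?_
    change ((simplexMor θ).tens.map.comp D.mor.map).comp σ =
      (D'.mor.map.comp (simplexMor φ).map).comp σ
    rw [← ADC.Mor.map_comp', ← ADC.Mor.map_comp', D.mor_natural D' θ φ hf hg hh]
  · refine Fun.ext fun x => Subtype.ext ?_
    refine Eq.trans ?_ (constFun_proj cylHyp (simplexGood a) ((orientalMap D.f).comp σ) x).symm
    change pull _ (D.mor.map.comp σ) = _
    rw [D.mor_eq_proj hfg hh, ADC.Mor.map_comp', simplexMor_map]
    rfl

end

end Vale.Agent.P213
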