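import Vale.Agent.P213.Base

/-!
# P213: morphisms of augmented directed complexes with bases

The induced functors, the tensor product with the interval as a functor, and the morphism of a
positive chain homotopy between simplices.
-/

namespace Vale.Agent.P213

universe u

noncomputable section

namespace ADC

variable {K L M : ADC}

/-- The extension to positive chains. -/
def pushN (f : K.B → (L.B →₀ ℕ)) : (K.B →₀ ℕ) →+ (L.B →₀ ℕ) :=
  Finsupp.liftAddHom fun b => (smulAddHom ℕ _).flip (f b)

/-- The extension to integral chains. -/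
def pushZ (f : K.B → (L.B →₀ ℕ)) : (K.B →₀ ℤ) →+ (L.B →₀ ℤ) :=
  Finsupp.liftAddHom fun b => (smulAddHom ℤ _).flip (L.toZ (f b))

theorem pushN_single (f : K.B → (L.B →₀ ℕ)) (b : K.B) (r : ℕ) :
    pushN f (Finsupp.single b r) = r • f b := by simp [pushN]

theorem pushZ_single (f : K.B → (L.B →₀ ℕ)) (b : K.B) (r : ℤ) :
    pushZ f (Finsupp.single b r) = r • L.toZ (f b) := by simp [pushZ]

theorem pushZ_single_one (f : K.B → (L.B →₀ ℕ)) (b : K.B) :
    pushZ f (Finsupp.single b 1) = L.toZ (f b) := by simp [pushZ]

theorem pushN_single_one (f : K.B → (L.B →₀ ℕ)) (b : K.B) :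
    pushN f (Finsupp.single b 1) = f b := by simp [pushN]

theorem pushZ_toZ (f : K.B → (L.B →₀ ℕ)) (x : K.B →₀ ℕ) :
    pushZ f (K.toZ x) = L.toZ (pushN f x) := by
  induction x using Finsupp.induction_linear with
  | zero => simp [ADC.toZ]
  | add x y hx hy => rw [ADC.toZ_add, map_add, map_add, ADC.toZ_add, hx, hy]
  | single b r =>
    rw [pushN_single, ADC.toZ, Finsupp.mapRange_single, pushZ_single]
    ext t
    simp [ADC.toZ]

/-- A morphism: an augmented chain map which sends basis elements to positive chains. -/
structure Mor (K L : ADC) where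
  f : K.B → (L.B →₀ ℕ)
  deg_eq : ∀ b t, f b t ≠ 0 → L.deg t = K.deg b
  aug : ∀ b, K.deg b = 0 → (f b).sum (fun _ r => r) = 1
  comm : ∀ b, L.bd (f b) = pushZ f (K.d b)

namespace Mor

@[ext] theorem ext {φ ψ : Mor K L} (h : ∀ b, φ.f b = ψ.f b) : φ = ψ := by
  cases φ; cases ψ; simp only [mk.injEq]; exact funext h

theorem bd_pushN (φ : Mor K L) (x : K.B →₀ ℕ) : L.bd (pushN φ.f x) = pushZ φ.f (K.bd x) := by
  induction x using Finsupp.induction_linear with
  | zero => simp [ADC.bd_zero]
  | add x y hx hy => rw [map_add, ADC.bd_add, ADC.bd_add, map_add, hx, hy]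
  | single b r =>
    rw [pushN_single, ADC.bd_single, map_nsmul, ← φ.comm b]
    induction r with
    | zero => simp [ADC.bd_zero]
    | succ r ih => rw [succ_nsmul, succ_nsmul, ADC.bd_add, ih]

theorem pushN_deg (φ : Mor K L) {x : K.B →₀ ℕ} {k : ℕ} (h : ∀ b, x b ≠ 0 → K.deg b = k) (t : L.B)
    (ht : pushN φ.f x t ≠ 0) : L.deg t = k := by
  by_contra hk
  refine ht ?_
  rw [pushN, Finsupp.liftAddHom_apply, Finsupp.sum_apply]
  refine Finset.sum_eq_zero fun b hb => ?_
  simp only [AddMonoidHom.flip_apply, smulAddHom_apply, Finsupp.coe_smul, Pi.smul_apply,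
    smul_eq_mul, mul_eq_zero]
  refine Or.inr (by_contra fun hne => hk ?_)
  rw [φ.deg_eq b t hne, h b (Finsupp.mem_support_iff.1 hb)]

theorem pushN_aug (φ : Mor K L) {x : K.B →₀ ℕ} (h : ∀ b, x b ≠ 0 → K.deg b = 0) :
    (pushN φ.f x).sum (fun _ r => r) = x.sum (fun _ r => r) := by
  rw [pushN, Finsupp.liftAddHom_apply, Finsupp.sum_sum_index (fun _ => rfl) fun _ _ _ => rfl]
  refine Finsupp.sum_congr fun b hb => ?_
  simp only [AddMonoidHom.flip_apply, smulAddHom_apply]
  rw [Finsupp.sum_smul_index fun _ => rfl, ← Finsupp.mul_sum,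
    φ.aug b (h b (Finsupp.mem_support_iff.1 hb)), mul_one]

/-- The image of a cell. -/
def cell (φ : Mor K L) (p : K.Cell) : L.Cell where
  x k e := pushN φ.f (p.x k e)
  deg_eq k e t ht := φ.pushN_deg (p.deg_eq k e) t ht
  aug e := by rw [φ.pushN_aug (p.deg_eq 0 e)]; exact p.aug e
  boundary k e := by rw [φ.bd_pushN, p.boundary, map_sub, pushZ_toZ, pushZ_toZ]
  bounded := p.bounded.imp fun N hN k e hk => by rw [hN k e hk, map_zero]

/-- The induced functor. -/
def map (φ : Mor K L) : Fun K.nu L.nu where
  toFun := φ.cell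
  map_s n p := by
    refine Cell.ext fun k e => ?_
    change pushN φ.f ((Cell.face false n p).x k e) = _
    simp only [Cell.face_x]
    split_ifs <;> first | rfl | exact map_zero _
  map_t n p := by
    refine Cell.ext fun k e => ?_
    change pushN φ.f ((Cell.face true n p).x k e) = _
    simp only [Cell.face_x]
    split_ifs <;> first | rfl | exact map_zero _
  map_comp n p q h := by
    refine Cell.ext fun k e => ?_
    change pushN φ.f ((Cell.comp n p q).x k e) = _
    erw [Cell.comp_x h, Cell.comp_x]
    · unfold Cell.compX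
      split_ifs <;> first | rfl | exact map_add _ _ _
    · refine Cell.composable_iff.2 ⟨?_, fun j d hj => ?_⟩
      · exact congrArg (pushN φ.f) (Cell.composable_iff.1 h).1
      · exact congrArg (pushN φ.f) ((Cell.composable_iff.1 h).2 j d hj)

/-- The identity morphism. -/
def id (K : ADC) : Mor K K where
  f b := Finsupp.single b 1
  deg_eq b t h := by rw [(Finsupp.single_apply_ne_zero.1 h).1]
  aug b _ := Finsupp.sum_single_index rfl
  comm b := by
    rw [ADC.bd_single, one_smul]
    conv_lhs => rw [← (K.d b).sum_single]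
    rw [pushZ, Finsupp.liftAddHom_apply]
    refine Finsupp.sum_congr fun t _ => ?_
    ext s
    simp [ADC.toZ, Finsupp.single_apply]

theorem pushN_id (x : K.B →₀ ℕ) : pushN (id K).f x = x := by
  conv_rhs => rw [← x.sum_single]
  rw [pushN, Finsupp.liftAddHom_apply]
  exact Finsupp.sum_congr fun b _ => by simp [id]

/-- Composition of morphisms. -/
def comp (φ : Mor K L) (ψ : Mor L M) : Mor K M where
  f b := pushN ψ.f (φ.f b)
  deg_eq b t ht := ψ.pushN_deg (φ.deg_eq b) t ht
  aug b hb := by
    rw [ψ.pushN_aug fun t ht => (φ.deg_eq b t ht).trans hb]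
    exact φ.aug b hb
  comm b := by
    rw [ψ.bd_pushN, φ.comm b]
    have : (pushZ ψ.f).comp (pushZ φ.f) = pushZ fun b => pushN ψ.f (φ.f b) := by
      refine Finsupp.addHom_ext fun t r => ?_
      simp [pushZ_single, pushZ_toZ]
    exact DFunLike.congr_fun this _

theorem pushN_comp (φ : Mor K L) (ψ : Mor L M) (x : K.B →₀ ℕ) :
    pushN (φ.comp ψ).f x = pushN ψ.f (pushN φ.f x) := by
  induction x using Finsupp.induction_linear with
  | zero => simp
  | add x y hx hy => simp only [map_add, hx, hy]
  | single b r => simp [pushN_single, comp]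

theorem map_id : (id K).map = Fun.id K.nu :=
  Fun.ext fun p => Cell.ext fun k e => pushN_id (p.x k e)

theorem map_comp' (φ : Mor K L) (ψ : Mor L M) : (φ.comp ψ).map = φ.map.comp ψ.map :=
  Fun.ext fun p => Cell.ext fun k e => pushN_comp φ ψ (p.x k e)

end Mor

/-! ### The tensor product with the interval -/

/-- Placement of a chain over a position of the interval. -/
def emb {A : Type*} {M : Type*} [AddCommMonoid M] (o : Option Bool) :
    (A →₀ M) →+ (A × Option Bool →₀ M) :=
  Finsupp.mapDomain.addMonoidHom fun a => (a, o)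

theorem emb_single {A : Type*} {M : Type*} [AddCommMonoid M] (o : Option Bool) (a : A) (r : M) :
    emb o (Finsupp.single a r) = Finsupp.single (a, o) r := Finsupp.mapDomain_single

theorem emb_apply_self {A : Type*} {M : Type*} [AddCommMonoid M] (o : Option Bool) (x : A →₀ M)
    (a : A) : emb o x (a, o) = x a :=
  Finsupp.mapDomain_apply (fun _ _ h => congrArg Prod.fst h) x a

theorem emb_apply_ne {A : Type*} {M : Type*} [AddCommMonoid M] (o : Option Bool) (x : A →₀ M)
    {p : A × Option Bool} (h : p.2 ≠ o) : emb o x p = 0 :=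
  Finsupp.mapDomain_notin_range x p fun ⟨a, ha⟩ => h (ha ▸ rfl)

theorem toZ_emb (o : Option Bool) (x : K.B →₀ ℕ) : K.tens.toZ (emb o x) = emb o (K.toZ x) := by
  ext p
  by_cases h : p.2 = o
  · obtain ⟨a, b⟩ := p
    subst h
    simp [ADC.toZ, emb_apply_self]
  · simp [ADC.toZ, emb_apply_ne o _ h]

/-- The correction term in the boundary of the tensor product. -/
def edgeTerm (o : Option Bool) (k : ℕ) (z : K.B →₀ ℤ) : K.B × Option Bool →₀ ℤ :=
  if o = none then (-1 : ℤ) ^ k • (emb (some true) z - emb (some false) z) else 0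

theorem tens_d (b : K.B) (o : Option Bool) :
    K.tens.d (b, o) = emb o (K.d b) + edgeTerm o (K.deg b) (Finsupp.single b 1) := by
  simp only [edgeTerm, emb_single]
  rfl

/-- The boundary of a chain placed over a position of the interval. -/
theorem tens_bd_emb (o : Option Bool) {x : K.B →₀ ℕ} {k : ℕ} (h : ∀ b, x b ≠ 0 → K.deg b = k) :
    K.tens.bd (emb o x) = emb o (K.bd x) + edgeTerm o k (K.toZ x) := by
  induction x using Finsupp.induction with
  | zero => simp [edgeTerm, ADC.bd_zero, ADC.toZ]
  | single_add b r x hb hr ih =>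
    have hk : K.deg b = k := h b (by simp [Finsupp.notMem_support_iff.1 hb, hr])
    have hx : ∀ c, x c ≠ 0 → K.deg c = k := fun c hc => h c (by
      have : c ≠ b := fun e => hc (e ▸ Finsupp.notMem_support_iff.1 hb)
      simp [Finsupp.single_apply, Ne.symm this, hc])
    have e : K.toZ (Finsupp.single b r) = r • Finsupp.single b (1 : ℤ) := by
      simp [ADC.toZ]
    rw [map_add, ADC.bd_add, ADC.bd_add, map_add, ih hx, emb_single, ADC.bd_single,
      ADC.bd_single, ADC.toZ_add, e, map_nsmul, tens_d, hk]
    simp only [edgeTerm]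
    split_ifs
    · simp only [map_add, map_nsmul, smul_add, smul_sub, smul_comm r ((-1 : ℤ) ^ k)]
      abel
    · simp only [add_zero, map_nsmul]

namespace Mor

theorem pushN_emb (φ : Mor K L) (o : Option Bool) (x : K.B →₀ ℕ) :
    pushN (K := K.tens) (L := L.tens) (fun p => emb p.2 (φ.f p.1)) (emb o x) =
      emb o (pushN φ.f x) := by
  induction x using Finsupp.induction_linear with
  | zero => simp
  | add x y hx hy => simp only [map_add, hx, hy]
  | single b r => rw [emb_single, pushN_single, pushN_single, map_nsmul]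

theorem pushZ_emb (φ : Mor K L) (o : Option Bool) (x : K.B →₀ ℤ) :
    pushZ (K := K.tens) (L := L.tens) (fun p => emb p.2 (φ.f p.1)) (emb o x) =
      emb o (pushZ φ.f x) := by
  induction x using Finsupp.induction_linear with
  | zero => simp
  | add x y hx hy => simp only [map_add, hx, hy]
  | single b r => rw [emb_single, pushZ_single, pushZ_single, toZ_emb, map_zsmul]

/-- The tensor product of a morphism with the interval. -/
def tens (φ : Mor K L) : Mor K.tens L.tens where
  f p := emb p.2 (φ.f p.1)
  deg_eq p t ht := by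
    by_cases h : t.2 = p.2
    · obtain ⟨s, o⟩ := t
      change o = p.2 at h
      subst h
      rw [emb_apply_self] at ht
      change L.deg s + _ = K.deg p.1 + _
      rw [φ.deg_eq p.1 s ht]
    · exact absurd (emb_apply_ne _ _ h) ht
  aug p hp := by
    change K.deg p.1 + _ = 0 at hp
    rw [emb, Finsupp.mapDomain.addMonoidHom_apply,
      Finsupp.sum_mapDomain_index (fun _ => rfl) fun _ _ _ => rfl]
    exact φ.aug p.1 (by omega)
  comm p := by
    obtain ⟨b, o⟩ := p
    rw [tens_bd_emb o (φ.deg_eq b), φ.comm b, tens_d, map_add, pushZ_emb]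
    congr 1
    simp only [edgeTerm]
    split_ifs
    · rw [map_zsmul, map_sub, pushZ_emb, pushZ_emb, pushZ_single_one]
    · rw [map_zero]

theorem tens_comp (φ : Mor K L) (ψ : Mor L M) : (φ.comp ψ).tens = φ.tens.comp ψ.tens :=
  Mor.ext fun p => (pushN_emb ψ p.2 (φ.f p.1)).symm

theorem tens_id (K : ADC) : (id K).tens = id K.tens :=
  Mor.ext fun p => emb_single p.2 p.1 1

/-- An end of the interval. -/
def incl (K : ADC) (e : Bool) : Mor K K.tens where
  f b := Finsupp.single (b, some e) 1
  deg_eq b t ht := by
    rw [(Finsupp.single_apply_ne_zero.1 ht).1]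
    simp
  aug b _ := Finsupp.sum_single_index rfl
  comm b := by
    rw [ADC.bd_single, one_smul, tens_d]
    have : (pushZ (K := K) (L := K.tens) fun b => Finsupp.single (b, some e) 1) = emb (some e) := by
      refine Finsupp.addHom_ext fun c r => ?_
      rw [pushZ_single, emb_single]
      simp [ADC.toZ]
    rw [this]
    simp [edgeTerm]

theorem incl_tens (φ : Mor K L) (e : Bool) : (incl K e).comp φ.tens = φ.comp (incl L e) := by
  refine Mor.ext fun b => ?_
  change pushN φ.tens.f (Finsupp.single (b, some e) 1) = pushN (incl L e).f (φ.f b)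
  refine (pushN_single_one φ.tens.f (b, some e)).trans ?_
  change emb (some e) (φ.f b) = _
  have : (pushN (K := L) (L := L.tens) (incl L e).f) = emb (some e) :=
    Finsupp.addHom_ext fun c r => by rw [pushN_single, emb_single]; simp [incl]
  rw [this]

/-- The projection of the cylinder. -/
def proj (K : ADC) : Mor K.tens K where
  f p := if p.2 = none then 0 else Finsupp.single p.1 1
  deg_eq p t ht := by
    split_ifs at ht with h
    · simp at ht
    · rw [(Finsupp.single_apply_ne_zero.1 ht).1]
      simp [h]
  aug p hp := by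
    obtain ⟨c, _ | e⟩ := p
    · simp at hp
    · simp
  comm p := by
    obtain ⟨b, o⟩ := p
    have : ∀ o : Option Bool, (pushZ (K := K.tens) (L := K)
        fun p => if p.2 = none then 0 else Finsupp.single p.1 1).comp (emb o) =
          if o = none then 0 else AddMonoidHom.id _ := fun o => by
      refine Finsupp.addHom_ext fun c r => ?_
      rw [AddMonoidHom.comp_apply, emb_single, pushZ_single]
      split_ifs <;> simp [ADC.toZ]
    rw [tens_d, map_add, ← AddMonoidHom.comp_apply, this]
    cases o with
    | none =>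
      simp only [edgeTerm, if_true, map_zsmul, map_sub, ← AddMonoidHom.comp_apply, this]
      simp [ADC.bd_zero]
    | some e => simp [edgeTerm, ADC.bd_single]

theorem tens_proj (φ : Mor K L) : φ.tens.comp (proj L) = (proj K).comp φ := by
  refine Mor.ext fun p => ?_
  change pushN (proj L).f (emb p.2 (φ.f p.1)) = pushN φ.f ((proj K).f p)
  have : ∀ o : Option Bool, (pushN (proj L).f).comp (emb o) =
      if o = none then 0 else AddMonoidHom.id _ := fun o => by
    refine Finsupp.addHom_ext fun c r => ?_
    rw [AddMonoidHom.comp_apply, emb_single, pushN_single]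
    simp only [proj]
    split_ifs <;> simp
  rw [← AddMonoidHom.comp_apply, this]
  simp only [proj]
  split_ifs <;> simp [pushN_single_one]

theorem incl_proj (K : ADC) (e : Bool) : (incl K e).comp (proj K) = id K := by
  refine Mor.ext fun b => ?_
  change pushN (proj K).f (Finsupp.single (b, some e) 1) = _
  refine (pushN_single_one (proj K).f (b, some e)).trans ?_
  simp [proj, id]

end Mor

end ADC

/-- The morphism of a map of simplices. -/
def simplexMor {a b : ℕ} (f : Fin (a + 1) →o Fin (b + 1)) :
    ADC.Mor (simplexADC a) (simplexADC b) where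
  f := imageBasis f
  deg_eq s t ht := by
    refine imageChain_deg f (Finsupp.single s 1) (k := (simplexADC a).deg s)
      (fun u hu => by rw [(Finsupp.single_apply_ne_zero.1 hu).1]) t ?_
    rwa [imageChain_single, one_smul]
  aug s hs := by
    have := imageChain_aug f (Finsupp.single s 1)
      (fun u hu => by rw [(Finsupp.single_apply_ne_zero.1 hu).1]; exact hs)
    rw [imageChain_single, one_smul] at this
    exact this.trans (Finsupp.sum_single_index rfl)
  comm s := bd_imageBasis f s

theorem simplexMor_map {a b : ℕ} (f : Fin (a + 1) →o Fin (b + 1)) :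
    (simplexMor f).map = orientalMap f := Fun.ext fun _ => rfl

namespace CylData

variable {a b : ℕ} (D : CylData a b)

/-- The value of a homotopy on a basis element of the cylinder. -/
def morF : (simplexADC a).B × Option Bool → ((simplexADC b).B →₀ ℕ)
  | (c, none) => D.h c
  | (c, some false) => imageBasis D.f c
  | (c, some true) => imageBasis D.g c

theorem pushZ_morF_none (z : (simplexADC a).B →₀ ℤ) :
    ADC.pushZ (K := (simplexADC a).tens) (L := simplexADC b) D.morF (ADC.emb none z) =
      extZ D.h z := by
  have e : ∀ z, ADC.pushZ (K := simplexADC a) (L := simplexADC b) D.h z = extZ D.h z :=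
    fun z => Finsupp.liftAddHom_apply _ z
  rw [← e]
  refine DFunLike.congr_fun (f := (ADC.pushZ (K := (simplexADC a).tens) (L := simplexADC b)
    D.morF).comp (ADC.emb none)) (g := ADC.pushZ (K := simplexADC a) (L := simplexADC b) D.h)
    (Finsupp.addHom_ext fun c r => ?_) z
  rw [AddMonoidHom.comp_apply, ADC.emb_single, ADC.pushZ_single, ADC.pushZ_single]
  rfl

/-- The morphism out of the cylinder of the simplex. -/
def mor : ADC.Mor (simplexADC a).tens (simplexADC b) where
  f := D.morF
  deg_eq p t ht := by
    obtain ⟨c, _ | _ | _⟩ := p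
    · simpa using D.deg_h c t ht
    · simpa using (simplexMor D.f).deg_eq c t ht
    · simpa using (simplexMor D.g).deg_eq c t ht
  aug p hp := by
    obtain ⟨c, _ | _ | _⟩ := p
    · simp at hp
    · exact (simplexMor D.f).aug c (by simpa using hp)
    · exact (simplexMor D.g).aug c (by simpa using hp)
  comm p := by
    have he : ∀ e : Bool, (ADC.pushZ (K := (simplexADC a).tens) (L := simplexADC b) D.morF).comp
        (ADC.emb (some e)) = ADC.pushZ (simplexMor (if e then D.g else D.f)).f := fun e => by
      refine Finsupp.addHom_ext fun c r => ?_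
      rw [AddMonoidHom.comp_apply, ADC.emb_single, ADC.pushZ_single, ADC.pushZ_single]
      cases e <;> rfl
    obtain ⟨c, o⟩ := p
    rw [ADC.tens_d, map_add]
    cases o with
    | none =>
      rw [D.pushZ_morF_none]
      simp only [ADC.edgeTerm, if_true, map_zsmul, map_sub, ← AddMonoidHom.comp_apply, he,
        ADC.pushZ_single_one]
      change (simplexADC b).bd (D.h c) = _
      exact (sub_eq_iff_eq_add'.mp (D.eq c)).trans (congrArg₂ (fun u v => extZ D.h
          ((simplexADC a).d c) + (-1 : ℤ) ^ (simplexADC a).deg c • (u - v))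
        (ADC.pushZ_single_one (simplexMor D.g).f c).symm
        (ADC.pushZ_single_one (simplexMor D.f).f c).symm)
    | some e =>
      simp only [ADC.edgeTerm, reduceCtorEq, if_false, map_zero, add_zero,
        ← AddMonoidHom.comp_apply, he]
      cases e
      · exact (simplexMor D.f).comm c
      · exact (simplexMor D.g).comm c

theorem incl_mor (e : Bool) :
    (ADC.Mor.incl (simplexADC a) e).comp D.mor = simplexMor (if e then D.g else D.f) := by
  refine ADC.Mor.ext fun c => ?_
  refine (ADC.pushN_single_one D.mor.f (c, some e)).trans ?_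
  cases e <;> rfl

theorem mor_eq_proj (hfg : D.f = D.g) (hh : ∀ c, D.h c = 0) :
    D.mor = (ADC.Mor.proj (simplexADC a)).comp (simplexMor D.f) := by
  refine ADC.Mor.ext fun p => ?_
  obtain ⟨c, _ | _ | _⟩ := p
  · change D.h c = ADC.pushN _ 0
    rw [hh, map_zero]
  · exact (ADC.pushN_single_one (simplexMor D.f).f c).symm
  · change imageBasis D.g c = _
    rw [← hfg]
    exact (ADC.pushN_single_one (simplexMor D.f).f c).symm

end CylData

end

end Vale.Agent.P213
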