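import Vale.Agent.P213.Cylinder.Mor

/-!
# P213: globular shapes as augmented directed complexes

The infinite globe, and the shapes obtained by pasting globes along one or two dimensions. A cell
of `nu K` is the same as a morphism from the infinite globe.
-/

namespace Vale.Agent.P213

noncomputable section

/-- A shape: every basis element of positive degree has one source and one target. -/
structure Glob where
  B : Type
  deg : B → ℕ
  src : B → B
  tgt : B → B
  deg_src : ∀ b, deg (src b) = deg b - 1
  deg_tgt : ∀ b, deg (tgt b) = deg b - 1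
  ne : ∀ b, deg b ≠ 0 → src b ≠ tgt b
  src_glob : ∀ b, 1 < deg b → src (src b) = src (tgt b)
  tgt_glob : ∀ b, 1 < deg b → tgt (src b) = tgt (tgt b)

namespace Glob

/-- The boundary of a basis element. -/
def dB (S : Glob) (b : S.B) : S.B →₀ ℤ :=
  if S.deg b = 0 then 0 else Finsupp.single (S.tgt b) 1 - Finsupp.single (S.src b) 1

theorem dB_zero (S : Glob) {b : S.B} (h : S.deg b = 0) : S.dB b = 0 := if_pos h

theorem dB_pos (S : Glob) {b : S.B} (h : S.deg b ≠ 0) :
    S.dB b = Finsupp.single (S.tgt b) 1 - Finsupp.single (S.src b) 1 := if_neg h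

/-- The complex of a shape. -/
abbrev adc (S : Glob) : ADC where
  B := S.B
  deg := S.deg
  d := S.dB

/-- A morphism out of a shape, from chains respecting degree, augmentation and boundary. -/
def lift (S : Glob) {L : ADC} (f : S.B → (L.B →₀ ℕ))
    (hdeg : ∀ b t, f b t ≠ 0 → L.deg t = S.deg b)
    (haug : ∀ b, S.deg b = 0 → (f b).sum (fun _ r => r) = 1)
    (h0 : ∀ b, S.deg b = 0 → L.bd (f b) = 0)
    (hs : ∀ b, S.deg b ≠ 0 → L.bd (f b) = L.toZ (f (S.tgt b)) - L.toZ (f (S.src b))) :
    ADC.Mor S.adc L where
  f := f
  deg_eq := hdeg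
  aug := haug
  comm b := by
    by_cases h : S.deg b = 0
    · rw [h0 b h, show S.adc.d b = 0 from S.dB_zero h, map_zero]
    · rw [hs b h, show S.adc.d b = _ from S.dB_pos h, map_sub, ADC.pushZ_single_one,
        ADC.pushZ_single_one]

theorem bd_basis (S : Glob) (b : S.B) : S.adc.bd (Finsupp.single b 1) = S.dB b :=
  (S.adc.bd_single b 1).trans (one_smul ℕ _)

theorem bd_basis_zero (S : Glob) {b : S.B} (h : S.deg b = 0) :
    S.adc.bd (Finsupp.single b 1) = 0 := (S.bd_basis b).trans (S.dB_zero h)

theorem bd_basis_pos (S : Glob) {b : S.B} (h : S.deg b ≠ 0) :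
    S.adc.bd (Finsupp.single b 1) = Finsupp.single (S.tgt b) 1 - Finsupp.single (S.src b) 1 :=
  (S.bd_basis b).trans (S.dB_pos h)

theorem toZ_single_one {K : ADC} (b : K.B) :
    K.toZ (Finsupp.single b 1) = Finsupp.single b 1 := by simp [ADC.toZ]

/-- The side `e` iterated `j` times. -/
def side (S : Glob) (e : Bool) : ℕ → S.B → S.B
  | 0, b => b
  | j + 1, b => if e then S.tgt (side S e j b) else S.src (side S e j b)

theorem deg_side (S : Glob) (e : Bool) (j : ℕ) (b : S.B) : S.deg (S.side e j b) = S.deg b - j := by
  induction j with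
  | zero => rfl
  | succ j ih => cases e <;> simp only [side, if_true, Bool.false_eq_true, if_false,
      deg_src, deg_tgt, ih] <;> omega

theorem tgt_side (S : Glob) (e : Bool) (b : S.B) {j : ℕ} (h : j < S.deg b) :
    S.tgt (S.side e j b) = S.side true (j + 1) b := by
  induction j generalizing e with
  | zero => rfl
  | succ j ih =>
    have hd := S.deg_side e j b
    have key : S.tgt (S.side e (j + 1) b) = S.tgt (S.tgt (S.side e j b)) := by
      cases e
      · exact S.tgt_glob _ (by omega)
      · rfl
    rw [key, ih e (by omega)]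
    rfl

theorem src_side (S : Glob) (e : Bool) (b : S.B) {j : ℕ} (h : j < S.deg b) :
    S.src (S.side e j b) = S.side false (j + 1) b := by
  induction j generalizing e with
  | zero => rfl
  | succ j ih =>
    have hd := S.deg_side e j b
    have key : S.src (S.side e (j + 1) b) = S.src (S.src (S.side e j b)) := by
      cases e
      · rfl
      · exact (S.src_glob _ (by omega)).symm
    rw [key, ih e (by omega)]
    rfl

theorem part_bd_basis (S : Glob) (e : Bool) {b : S.B} (h : S.deg b ≠ 0) :
    S.adc.part e (S.adc.bd (Finsupp.single b 1)) =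
      Finsupp.single (if e then S.tgt b else S.src b) 1 := by
  classical
  rw [S.bd_basis_pos h]
  have hne := S.ne b h
  ext t
  cases e <;> simp only [ADC.part, if_true, Bool.false_eq_true, if_false,
    Finsupp.mapRange_apply, Finsupp.sub_apply, Finsupp.neg_apply, Finsupp.single_apply] <;>
    split_ifs <;> simp_all

theorem atomX_eq (S : Glob) (b : S.B) (k : ℕ) (e : Bool) :
    S.adc.atomX b k e =
      if k ≤ S.deg b then Finsupp.single (S.side e (S.deg b - k) b) 1 else 0 := by
  have h : ∀ j ≤ S.deg b, S.adc.atomDown b e j = Finsupp.single (S.side e j b) 1 := by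
    intro j hj
    induction j with
    | zero => rfl
    | succ j ih =>
      rw [ADC.atomDown, ih (by omega), S.part_bd_basis e (by rw [deg_side]; omega)]
      rfl
  unfold ADC.atomX
  by_cases hk : k ≤ S.deg b
  · exact (if_pos hk).trans ((h _ (Nat.sub_le _ _)).trans (if_pos hk).symm)
  · exact (if_neg hk).trans (if_neg hk).symm

/-- The cell of a basis element. -/
def atom (S : Glob) (b : S.B) : S.adc.Cell where
  x k e := if k ≤ S.deg b then Finsupp.single (S.side e (S.deg b - k) b) 1 else 0
  deg_eq k e t ht := by
    split_ifs at ht with hk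
    · rw [(Finsupp.single_apply_ne_zero.1 ht).1]
      show S.deg _ = k
      rw [deg_side]
      omega
    · simp at ht
  aug e := by simp
  boundary k e := by
    rcases lt_trichotomy k (S.deg b) with hk | hk | hk
    · have hne : S.deg (S.side e (S.deg b - (k + 1)) b) ≠ 0 := by rw [deg_side]; omega
      rw [if_pos (show k + 1 ≤ S.deg b by omega), if_pos hk.le, if_pos hk.le,
        S.bd_basis_pos hne, toZ_single_one, toZ_single_one, S.tgt_side e b (by omega),
        S.src_side e b (by omega), show S.deg b - (k + 1) + 1 = S.deg b - k by omega]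
    · subst hk
      rw [if_neg (show ¬(S.deg b + 1 ≤ S.deg b) by omega), if_pos le_rfl, if_pos le_rfl,
        Nat.sub_self, ADC.bd_zero]
      exact (sub_self _).symm
    · rw [if_neg (by omega), if_neg (by omega), if_neg (by omega), ADC.bd_zero, sub_self]
  bounded := ⟨S.deg b, fun k e hk => if_neg (by omega)⟩

theorem isAtom_atom (S : Glob) (b : S.B) : S.adc.IsAtom b (S.atom b) :=
  fun k e => (S.atomX_eq b k e).symm

/-- A shape with a height function is good. -/
theorem good (S : Glob) (key : S.B → List ℤ) (hinj : Function.Injective key)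
    (hlt : ∀ b, S.deg b ≠ 0 → key (S.src b) < key b ∧ key b < key (S.tgt b)) : S.adc.Good where
  deg_d b c h := by
    show S.deg c + 1 = S.deg b
    change S.dB b c ≠ 0 at h
    by_cases h0 : S.deg b = 0
    · simp [S.dB_zero h0] at h
    · have : c = S.tgt b ∨ c = S.src b := by
        by_contra hc
        rw [not_or] at hc
        exact h (by simp [S.dB_pos h0, hc.1, hc.2])
      rcases this with rfl | rfl <;> simp only [deg_src, deg_tgt] <;> omega
  dd b := by
    show ((S.dB b).sum fun c r => r • S.dB c) = 0
    by_cases h0 : S.deg b = 0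
    · simp [S.dB_zero h0]
    · rw [S.dB_pos h0, Finsupp.sum_sub_index fun _ _ _ => sub_smul _ _ _,
        Finsupp.sum_single_index (zero_smul ℤ (S.dB (S.tgt b))),
        Finsupp.sum_single_index (zero_smul ℤ (S.dB (S.src b))), one_zsmul, one_zsmul]
      by_cases h1 : 1 < S.deg b
      · rw [S.dB_pos (by rw [deg_tgt]; omega), S.dB_pos (by rw [deg_src]; omega),
          S.src_glob b h1, S.tgt_glob b h1, sub_self]
      · rw [S.dB_zero (by rw [deg_tgt]; omega), S.dB_zero (by rw [deg_src]; omega), sub_self]
  unital b e := by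
    rw [atomX_eq, if_pos (Nat.zero_le _)]
    exact Finsupp.sum_single_index rfl
  order := by
    refine ⟨fun a b => key a < key b, ?_, fun b c => ?_⟩
    · exact { trichotomous := fun a b h1 h2 => hinj (le_antisymm (not_lt.1 h2) (not_lt.1 h1))
              irrefl := fun a => lt_irrefl (key a)
              trans := fun _ _ _ h1 h2 => lt_trans h1 h2 }
    · show (S.dB b c < 0 → key c < key b) ∧ (0 < S.dB b c → key b < key c)
      classical
      by_cases h0 : S.deg b = 0
      · simp [S.dB_zero h0]
      · rw [S.dB_pos h0, Finsupp.sub_apply, Finsupp.single_apply, Finsupp.single_apply]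
        refine ⟨fun h => ?_, fun h => ?_⟩
        · split_ifs at h with h1 h2
          all_goals first | omega | (subst_vars; exact (hlt b h0).1)
        · split_ifs at h with h1 h2
          all_goals first | omega | (subst_vars; exact (hlt b h0).2)

end Glob

/-- The infinite globe: one source (`false`) and one target (`true`) in every degree. -/
abbrev globe : Glob where
  B := ℕ × Bool
  deg b := b.1
  src b := (b.1 - 1, false)
  tgt b := (b.1 - 1, true)
  deg_src _ := rfl
  deg_tgt _ := rfl
  ne _ _ h := Bool.false_ne_true (congrArg Prod.snd h)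
  src_glob _ _ := rfl
  tgt_glob _ _ := rfl

namespace ADC

variable {K L : ADC}

/-- The morphism of a cell. -/
def Cell.mor (hd : ∀ b, K.deg b = 0 → K.d b = 0) (p : K.Cell) : Mor globe.adc K :=
  globe.lift (fun b => p.x b.1 b.2) (fun b t => p.deg_eq b.1 b.2 t)
    (fun b hb => by
      change b.1 = 0 at hb
      obtain ⟨k, e⟩ := b
      subst hb
      exact p.aug e)
    (fun b hb => by
      change b.1 = 0 at hb
      obtain ⟨k, e⟩ := b
      subst hb
      refine Finset.sum_eq_zero fun t ht => ?_
      change (p.x 0 e t) • K.d t = 0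
      rw [hd t (p.deg_eq 0 e t (Finsupp.mem_support_iff.1 ht)), smul_zero])
    (fun b hb => by
      obtain ⟨k, e⟩ := b
      obtain ⟨k, rfl⟩ := Nat.exists_eq_succ_of_ne_zero hb
      exact p.boundary k e)

@[simp] theorem Cell.mor_f (hd : ∀ b, K.deg b = 0 → K.d b = 0) (p : K.Cell) (k : ℕ) (e : Bool) :
    (p.mor hd).f (k, e) = p.x k e := rfl

theorem Cell.mor_comp (hd : ∀ b, K.deg b = 0 → K.d b = 0) (hd' : ∀ b, L.deg b = 0 → L.d b = 0)
    (p : K.Cell) (φ : Mor K L) : (p.mor hd).comp φ = (φ.cell p).mor hd' :=
  Mor.ext fun _ => rfl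

end ADC

/-- The height in the globe. -/
def globeKey : ℕ × Bool → List ℤ
  | (j, false) => [0, (j : ℤ)]
  | (j, true) => [2, -(j : ℤ)]

theorem globe_good : globe.adc.Good := by
  refine globe.good globeKey (fun p q h => ?_) fun b hb => ?_
  · obtain ⟨i, _ | _⟩ := p <;> obtain ⟨j, _ | _⟩ := q <;> simp [globeKey] at h ⊢ <;> omega
  · obtain ⟨j, _ | _⟩ := b <;>
      (change j ≠ 0 at hb; simp [globeKey, List.cons_lt_cons_iff]; try omega)

/-- Collapse of the globe onto its source (`false`) or target (`true`) in degree `n`. -/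
def globeFace (e : Bool) (n : ℕ) : ADC.Mor globe.adc globe.adc :=
  globe.lift
    (fun b => if b.1 < n then Finsupp.single b 1
      else if b.1 = n then Finsupp.single (n, e) 1 else 0)
    (fun b t ht => by
      split_ifs at ht with h1 h2
      · rw [(Finsupp.single_apply_ne_zero.1 ht).1]
      · rw [(Finsupp.single_apply_ne_zero.1 ht).1]; exact h2.symm
      · simp at ht)
    (fun b hb => by
      change b.1 = 0 at hb
      rw [hb]
      split_ifs <;> first | exact Finsupp.sum_single_index rfl | omega)
    (fun b hb => by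
      change b.1 = 0 at hb
      rw [hb]
      split_ifs with h1 h2
      · exact Glob.bd_basis_zero _ hb
      · exact Glob.bd_basis_zero _ (show n = 0 by omega)
      · exact ADC.bd_zero _)
    (fun b hb => by
      obtain ⟨k, a⟩ := b
      obtain ⟨k, rfl⟩ := Nat.exists_eq_succ_of_ne_zero hb
      simp only [Nat.succ_eq_add_one, Nat.add_sub_cancel]
      rcases lt_trichotomy (k + 1) n with h | h | h
      · rw [if_pos h, if_pos (show k < n by omega), if_pos (show k < n by omega),
          Glob.bd_basis_pos _ (show k + 1 ≠ 0 by omega), Glob.toZ_single_one, Glob.toZ_single_one]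
        rfl
      · subst h
        rw [if_neg (lt_irrefl _), if_pos rfl, if_pos (show k < k + 1 by omega),
          if_pos (show k < k + 1 by omega), Glob.bd_basis_pos _ (show k + 1 ≠ 0 by omega),
          Glob.toZ_single_one, Glob.toZ_single_one]
        rfl
      · rw [if_neg (by omega), if_neg (by omega), ADC.bd_zero]
        rcases Nat.lt_or_eq_of_le (show n ≤ k by omega) with h' | rfl
        · simp [show ¬k < n by omega, show k ≠ n by omega, ADC.toZ]
        · simp)

theorem globeFace_f (e : Bool) (n : ℕ) (b : ℕ × Bool) : (globeFace e n).f b =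
    if b.1 < n then Finsupp.single b 1 else if b.1 = n then Finsupp.single (n, e) 1 else 0 := rfl

/-- Faces of cells are precompositions with collapses. -/
theorem ADC.Cell.mor_face {K : ADC} (hd : ∀ b, K.deg b = 0 → K.d b = 0) (p : K.Cell) (e : Bool)
    (n : ℕ) : (ADC.Cell.face e n p).mor hd = (globeFace e n).comp (p.mor hd) := by
  refine ADC.Mor.ext fun b => ?_
  obtain ⟨k, a⟩ := b
  change (ADC.Cell.face e n p).x k a = ADC.pushN _ ((globeFace e n).f (k, a))
  rw [ADC.Cell.face_x, globeFace_f]
  split_ifs with h1 h2
  · exact (ADC.pushN_single_one (p.mor hd).f (k, a)).symm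
  · subst h2; exact (ADC.pushN_single_one (p.mor hd).f (k, e)).symm
  · rw [map_zero]

theorem globeFace_comp (e e' : Bool) (i j : ℕ) :
    (globeFace e i).comp (globeFace e' j) = if i < j then globeFace e i else globeFace e' j := by
  refine ADC.Mor.ext fun b => ?_
  obtain ⟨k, a⟩ := b
  change ADC.pushN (globeFace e' j).f ((globeFace e i).f (k, a)) = _
  rw [globeFace_f]
  rcases lt_trichotomy k i with h | h | h
  · rw [if_pos h]
    refine (ADC.pushN_single_one (globeFace e' j).f (k, a)).trans ?_
    by_cases hij : i < j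
    · rw [if_pos hij, globeFace_f, globeFace_f, if_pos h, if_pos (show k < j by omega)]
    · rw [if_neg hij]
  · subst h
    rw [if_neg (lt_irrefl _), if_pos rfl]
    refine (ADC.pushN_single_one (globeFace e' j).f (k, e)).trans ?_
    by_cases hij : k < j
    · rw [if_pos hij, globeFace_f, globeFace_f, if_pos hij, if_neg (lt_irrefl _), if_pos rfl]
    · rw [if_neg hij, globeFace_f, globeFace_f, if_neg hij, if_neg hij]
  · rw [if_neg (show ¬k < i by omega), if_neg (show k ≠ i by omega), map_zero]
    by_cases hij : i < j
    · rw [if_pos hij, globeFace_f, if_neg (show ¬k < i by omega), if_neg (show k ≠ i by omega)]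
    · rw [if_neg hij, globeFace_f, if_neg (show ¬k < j by omega), if_neg (show k ≠ j by omega)]

/-- Pasting of globes: `r` of them along dimension `n`, and `r'` such columns side by side along
dimension `m`. -/
inductive Paste (m n r r' : ℕ) : Type
  /-- below `m` -/
  | low (j : Fin m) (a : Bool)
  /-- in dimension `m` -/
  | outer (k : Fin (r' + 1))
  /-- strictly between `m` and `n` -/
  | mid (j : ℕ) (h : m < j ∧ j < n) (i : Fin r') (a : Bool)
  /-- in dimension `n` -/
  | inner (h : m < n) (i : Fin r') (k : Fin (r + 1))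
  /-- above both -/
  | high (j : ℕ) (h : n < j ∧ m < j) (i : Fin r') (l : Fin r) (a : Bool)

namespace Paste

variable {m n r r' : ℕ}

/-- The degree. -/
def deg : Paste m n r r' → ℕ
  | low j _ => j
  | outer _ => m
  | mid j _ _ _ => j
  | inner _ _ _ => n
  | high j _ _ _ _ => j

/-- The element in degree `j` and position `a` of the globe number `(i, l)`. -/
def at' (i : Fin r') (l : Fin r) (j : ℕ) (a : Bool) : Paste m n r r' :=
  if h₁ : j < m then low ⟨j, h₁⟩ a
  else if h₂ : j = m then outer (if a then i.succ else i.castSucc)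
  else if h₃ : j < n then mid j ⟨by omega, h₃⟩ i a
  else if h₄ : j = n then inner (by omega) i (if a then l.succ else l.castSucc)
  else high j ⟨by omega, by omega⟩ i l a

theorem deg_at (i : Fin r') (l : Fin r) (j : ℕ) (a : Bool) :
    (at' i l j a : Paste m n r r').deg = j := by
  unfold at'
  split_ifs <;> simp [deg, *]

/-- The globe in which the boundary of an element is read off. -/
def column : Paste m n r r' → Option (Fin r') × Option (Fin r)
  | low _ _ => (none, none)
  | outer _ => (none, none)
  | mid _ _ i _ => (some i, none)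
  | inner _ i _ => (some i, none)
  | high _ _ i l _ => (some i, some l)

/-- The face in degree `deg - 1`. -/
def bdry (a : Bool) (x : Paste m n r r') : Paste m n r r' :=
  match x with
  | low j _ => low ⟨j - 1, lt_of_le_of_lt (Nat.sub_le _ _) j.2⟩ a
  | outer k => if h : m = 0 then outer k else low ⟨m - 1, by omega⟩ a
  | mid j h i _ =>
    if h' : m < j - 1 then mid (j - 1) ⟨h', by omega⟩ i a
    else outer (if a then i.succ else i.castSucc)
  | inner hmn i _ =>
    if h' : m < n - 1 then mid (n - 1) ⟨h', by omega⟩ i a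
    else outer (if a then i.succ else i.castSucc)
  | high j h i l _ => at' i l (j - 1) a

theorem deg_bdry (a : Bool) (x : Paste m n r r') : (bdry a x).deg = x.deg - 1 := by
  cases x <;> simp only [bdry] <;> (try split_ifs) <;> (try rw [deg_at]) <;> simp only [deg] <;>
    omega

end Paste

namespace Paste

variable {m n r r' : ℕ}

theorem bdry_at (i : Fin r') (l : Fin r) (j : ℕ) (a e : Bool) :
    bdry e (at' i l (j + 1) a : Paste m n r r') = at' i l j e := by
  unfold at'
  split_ifs <;> simp only [bdry, Nat.add_sub_cancel, at'] <;> (try split_ifs) <;>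
    first | rfl | omega | (subst_vars; simp_all)

theorem bdry_glob (e : Bool) (x : Paste m n r r') (h : 1 < x.deg) :
    bdry e (bdry false x) = bdry e (bdry true x) := by
  cases x with
  | low j a => rfl
  | outer k =>
    simp only [deg] at h
    simp only [bdry, show m ≠ 0 by omega, dite_false]
  | mid j hj i a =>
    simp only [deg] at h
    simp only [bdry]
    split_ifs <;> first | rfl | simp_all
  | inner hmn i k =>
    simp only [deg] at h
    simp only [bdry]
    split_ifs <;> first | rfl | simp_all
  | high j hj i l a =>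
    obtain ⟨j', hj'⟩ : ∃ j', j - 1 = j' + 1 := ⟨j - 2, by simp only [deg] at h; omega⟩
    show bdry e (at' i l (j - 1) false) = bdry e (at' i l (j - 1) true)
    rw [hj', bdry_at, bdry_at]

theorem bdry_ne (x : Paste m n r r') (h : x.deg ≠ 0) : bdry false x ≠ bdry true x := by
  cases x with
  | low j a => simp [bdry]
  | outer k => simp only [deg] at h; simp [bdry, h]
  | mid j hj i a =>
    simp only [bdry]
    split_ifs <;> simp_all [Fin.ext_iff]
  | inner hmn i k =>
    simp only [bdry]
    split_ifs <;> simp_all [Fin.ext_iff]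
  | high j hj i l a =>
    simp only [bdry, at']
    split_ifs <;> simp_all [Fin.ext_iff]

/-- The height in a pasting. -/
def key : Paste m n r r' → List ℤ
  | low j false => [0, (j : ℤ)]
  | low j true => [2, -(j : ℤ)]
  | outer k => [1, 2 * (k : ℤ)]
  | mid j _ i false => [1, 2 * (i : ℤ) + 1, 0, (j : ℤ)]
  | mid j _ i true => [1, 2 * (i : ℤ) + 1, 2, -(j : ℤ)]
  | inner _ i k => [1, 2 * (i : ℤ) + 1, 1, 2 * (k : ℤ)]
  | high j _ i l false => [1, 2 * (i : ℤ) + 1, 1, 2 * (l : ℤ) + 1, 0, (j : ℤ)]
  | high j _ i l true => [1, 2 * (i : ℤ) + 1, 1, 2 * (l : ℤ) + 1, 2, -(j : ℤ)]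

theorem key_injective : Function.Injective (key : Paste m n r r' → List ℤ) := by
  intro p q h
  rcases p with ⟨j, _ | _⟩ | k | ⟨j, hj, i, _ | _⟩ | ⟨hmn, i, k⟩ | ⟨j, hj, i, l, _ | _⟩ <;>
    rcases q with ⟨j', _ | _⟩ | k' | ⟨j', hj', i', _ | _⟩ | ⟨hmn', i', k'⟩ |
      ⟨j', hj', i', l', _ | _⟩ <;>
    simp [key, Fin.ext_iff] at h ⊢ <;> omega

theorem key_bdry (x : Paste m n r r') (h : x.deg ≠ 0) :
    key (bdry false x) < key x ∧ key x < key (bdry true x) := by
  rcases x with ⟨j, _ | _⟩ | k | ⟨j, hj, i, _ | _⟩ | ⟨hmn, i, k⟩ | ⟨j, hj, i, l, _ | _⟩ <;>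
    simp only [deg] at h <;> simp only [bdry, at'] <;> (try split_ifs) <;>
    simp [key, List.cons_lt_cons_iff, Fin.val_succ] <;> first | contradiction | omega

end Paste

/-- The shape of a pasting. -/
abbrev pasting (m n r r' : ℕ) : Glob where
  B := Paste m n r r'
  deg := Paste.deg
  src := Paste.bdry false
  tgt := Paste.bdry true
  deg_src := Paste.deg_bdry false
  deg_tgt := Paste.deg_bdry true
  ne := Paste.bdry_ne
  src_glob := Paste.bdry_glob false
  tgt_glob := Paste.bdry_glob true

theorem pasting_good (m n r r' : ℕ) : (pasting m n r r').adc.Good :=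
  (pasting m n r r').good Paste.key Paste.key_injective Paste.key_bdry

/-- One globe inside a pasting. -/
def pasteIncl {m n r r' : ℕ} (i : Fin r') (l : Fin r) : ADC.Mor globe.adc (pasting m n r r').adc :=
  globe.lift (fun b => Finsupp.single (Paste.at' i l b.1 b.2) 1)
    (fun b t ht => by
      rw [(Finsupp.single_apply_ne_zero.1 ht).1]
      exact Paste.deg_at i l b.1 b.2)
    (fun b _ => Finsupp.sum_single_index rfl)
    (fun b hb => by
      exact Glob.bd_basis_zero _ ((Paste.deg_at i l b.1 b.2).trans hb))
    (fun b hb => by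
      obtain ⟨k, e⟩ := b
      obtain ⟨k, rfl⟩ := Nat.exists_eq_succ_of_ne_zero hb
      rw [Glob.bd_basis_pos (pasting m n r r') (b := Paste.at' i l (k + 1) e)
        (by show Paste.deg _ ≠ 0; rw [Paste.deg_at]; omega), Glob.toZ_single_one,
        Glob.toZ_single_one]
      show Finsupp.single (Paste.bdry true (Paste.at' i l (k + 1) e)) 1 -
        Finsupp.single (Paste.bdry false (Paste.at' i l (k + 1) e)) 1 = _
      rw [Paste.bdry_at, Paste.bdry_at]
      rfl)

end

end Vale.Agent.P213
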