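import Vale.Agent.P213.Cylinder.Ends

/-!
# P213: functors into cylinders as functors out of cylinders

A functor from the cells of a complex to the cylinders in `X` is the same as a functor out of the
cylinder of the complex to `X`.
-/

namespace Vale.Agent.P213

universe u

noncomputable section

variable {K L : ADC} {X Y : OmCat.{u}}

theorem ADC.Cell.mor_atom (hd : ∀ b, K.deg b = 0 → K.d b = 0) (x : K.Cell) (j : ℕ) (a : Bool) :
    (x.mor hd).cell (globe.atom (j, a)) = ADC.Cell.face a j x := by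
  refine ADC.Cell.ext fun k e => ?_
  rw [cell_atom_x, ADC.Cell.face_x]
  split_ifs <;> first | rfl | (subst_vars; rfl)

/-- The transpose of a functor out of a cylinder. -/
def gamLift (H : CylHyp.{u}) (hK : K.Good) (U : Fun K.tens.nu X) : Fun K.nu (gam H X) where
  toFun x := ⟨pull (x.mor hK.hd) U, (K.nu.bounded x).imp fun N (hN : ADC.Cell.face false N x = x) =>
    by rw [← pull_comp, ← ADC.Cell.mor_face hK.hd, hN]⟩
  map_s n x := Subtype.ext (by
    change pull ((ADC.Cell.face false n x).mor hK.hd) U = pull _ (pull _ U)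
    rw [ADC.Cell.mor_face, pull_comp])
  map_t n x := Subtype.ext (by
    change pull ((ADC.Cell.face true n x).mor hK.hd) U = pull _ (pull _ U)
    rw [ADC.Cell.mor_face, pull_comp])
  map_comp n x y e := by
    obtain ⟨hc, he⟩ := ADC.Cell.comp_mor hK.hd (p := n) e
    apply Subtype.ext
    refine Eq.trans ?_ (gam_comp H (GComp.of_rep hc U)).symm
    rw [gcomp_pull H hc, ← he]

theorem gamLift_apply (H : CylHyp.{u}) (hK : K.Good) (U : Fun K.tens.nu X) (x : K.Cell) :
    ((gamLift H hK U).toFun x).1 = pull (x.mor hK.hd) U := rfl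

theorem gamLift_end (H : CylHyp.{u}) (hK : K.Good) (U : Fun K.tens.nu X) (o : Bool) :
    (gamLift H hK U).comp (endFun H X o) = (ADC.Mor.incl K o).map.comp U := by
  refine Fun.ext fun x => ?_
  obtain ⟨N, hN⟩ : ∃ N, ADC.Cell.face false N x = x := K.nu.bounded x
  have hb : pull (globeFace false N) ((gamLift H hK U).toFun x).1 =
      ((gamLift H hK U).toFun x).1 := by
    rw [gamLift_apply, ← pull_comp, ← ADC.Cell.mor_face hK.hd, hN]
  refine (endVal_eq o _ hb).trans (congrArg U.toFun ?_)
  change (x.mor hK.hd).tens.cell ((ADC.Mor.incl globe.adc o).cell (globe.atom (N, false))) =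
    (ADC.Mor.incl K o).cell x
  rw [← ADC.Mor.cell_comp, ADC.Mor.incl_tens, ADC.Mor.cell_comp, ADC.Cell.mor_atom, hN]

theorem gamLift_map (H : CylHyp.{u}) (hK : K.Good) (U : Fun K.tens.nu X) (F : Fun X Y) :
    (gamLift H hK U).comp (gamMap H F) = gamLift H hK (U.comp F) :=
  Fun.ext fun _ => Subtype.ext rfl

theorem gamLift_pull (H : CylHyp.{u}) (hK : K.Good) (hL : L.Good) (φ : ADC.Mor K L)
    (U : Fun L.tens.nu X) : gamLift H hK (pull φ U) = φ.map.comp (gamLift H hL U) :=
  Fun.ext fun x => Subtype.ext (by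
    change pull (x.mor hK.hd) (pull φ U) = pull ((φ.cell x).mor hL.hd) U
    rw [← pull_comp, ADC.Cell.mor_comp hK.hd hL.hd])

theorem isAtom_mor_gT (hK : K.Good) {c : K.B} {x : K.Cell} (hx : K.IsAtom c x) (o : Option Bool) :
    K.tens.IsAtom (c, o) ((x.mor hK.hd).tens.cell (gT ((K.deg c, false), o))) :=
  (x.mor hK.hd).tens_atom globe_hd hK.hd (globe.isAtom_atom (K.deg c, false))
    (by rw [ADC.Cell.mor_atom, hx.face_eq le_rfl false]; exact hx) o (isAtom_gT _)

theorem gamLift_inj (H : CylHyp.{u}) (hK : K.Good) {U V : Fun K.tens.nu X}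
    (h : gamLift H hK U = gamLift H hK V) : U = V := by
  refine H.ext _ (H.tensGood K hK) X U V fun b p hp => ?_
  obtain ⟨c, o⟩ := b
  obtain ⟨x, hx⟩ := H.atom K hK c
  rw [hp.eq (isAtom_mor_gT hK hx o)]
  exact congrArg (fun T : Fun K.nu (gam H X) => (T.toFun x).1.toFun (gT ((K.deg c, false), o))) h

/-- On cells of dimension at most `l` the functor `F` is the transpose of `σ` at `x`. -/
def Agree {H : CylHyp.{u}} (hK : K.Good) (σ : Fun K.nu (gam H X)) {l : ℕ}
    (F : Fun (K.tens.nu.skel l) X) (x : K.Cell) : Prop :=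
  ((x.mor hK.hd).tens.map.skelMap l).comp F =
    (globe.adc.tens.nu.subι _ (globe.adc.tens.nu.skel_closed l)).comp (σ.toFun x).1

theorem Agree.apply {H : CylHyp.{u}} {hK : K.Good} {σ : Fun K.nu (gam H X)} {l : ℕ}
    {F : Fun (K.tens.nu.skel l) X} {x : K.Cell} (h : Agree hK σ F x)
    (z : (globe.adc.tens.nu.skel l).carrier) (q : (K.tens.nu.skel l).carrier)
    (hq : q.1 = (x.mor hK.hd).tens.cell z.1) : F.toFun q = (σ.toFun x).1.toFun z.1 :=
  (congrArg F.toFun (Subtype.ext hq)).trans
    (congrArg (fun T : Fun (globe.adc.tens.nu.skel l) X => T.toFun z) h)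

theorem agree_closed (H : CylHyp.{u}) (hK : K.Good) (σ : Fun K.nu (gam H X)) {l : ℕ}
    (F : Fun (K.tens.nu.skel l) X) : K.nu.Closed (Agree hK σ F) := by
  have face : ∀ (e : Bool) (i : ℕ) (x : K.Cell), Agree hK σ F x →
      (σ.toFun (ADC.Cell.face e i x)).1 = pull (globeFace e i) (σ.toFun x).1 →
      Agree hK σ F (ADC.Cell.face e i x) := by
    intro e i x hx hσ
    refine Fun.ext fun z => ?_
    change F.toFun _ = (σ.toFun (ADC.Cell.face e i x)).1.toFun z.1
    rw [hσ]
    refine hx.apply (((globeFace e i).tens.map.skelMap l).toFun z) _ ?_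
    change ((ADC.Cell.face e i x).mor hK.hd).tens.cell z.1 =
      (x.mor hK.hd).tens.cell ((globeFace e i).tens.cell z.1)
    rw [ADC.Cell.mor_face, ADC.Mor.tens_comp, ADC.Mor.cell_comp]
  refine ⟨fun i x hx => face false i x hx (congrArg Subtype.val (σ.map_s i x)),
    fun i x hx => face true i x hx (congrArg Subtype.val (σ.map_t i x)),
    fun p x y hx hy hc => ?_⟩
  obtain ⟨hcm, hm⟩ := ADC.Cell.comp_mor hK.hd (p := p) hc
  have hcσ : GComp p (σ.toFun x).1 (σ.toFun y).1 :=
    congrArg Subtype.val ((σ.map_t p x).symm.trans ((congrArg σ.toFun hc).trans (σ.map_s p y)))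
  obtain ⟨W, hW, -⟩ := hcσ.glue H
  have hp : Nat.lt p (p + 1) := Nat.lt_succ_self p
  obtain ⟨χ, hχ⟩ := Paste.exists_desc (L := K) hp Nat.one_pos two_pos
    (fun i (_ : Fin 1) => ![x.mor hK.hd, y.mor hK.hd] i) (by
      obtain ⟨hlt, hle⟩ := ADC.Mor.composable_iff.1 hcm
      have := Paste.coh_two (v₀ := (x.mor hK.hd).f) (v₁ := (y.mor hK.hd).f)
        (fun j a hj => hle j a hj) hlt
      refine (show (fun (i : Fin 2) (_ : Fin 1) => (![x.mor hK.hd, y.mor hK.hd] i).f) =
        fun i _ => ![(x.mor hK.hd).f, (y.mor hK.hd).f] i from ?_) ▸ this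
      funext i _
      fin_cases i <;> rfl)
  have hinc : ADC.Mor.Composable p (pasteIncl (m := p) (n := p + 1) (0 : Fin 2) (0 : Fin 1))
      (pasteIncl 1 0) := (Paste.incl_coh hp).composable_m rfl 0 0
  have hP := pasting_good p (p + 1) 1 2
  have hFW : (χ.tens.map.skelMap l).comp F =
      ((pasting p (p + 1) 1 2).adc.tens.nu.subι _
        ((pasting p (p + 1) 1 2).adc.tens.nu.skel_closed l)).comp W := by
    refine ADC.skel_ext H.toFreeHyp (H.tensGood _ hP) _ _ fun b q hb hq => ?_
    obtain ⟨b, o⟩ := b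
    obtain ⟨i, s, j, a, rfl⟩ := Paste.at_surj hp Nat.one_pos two_pos b
    have hq' : q.1 = (pasteIncl i s).tens.cell (gT ((j, a), o)) :=
      hq.eq ((pasteIncl i s).tens_atom globe_hd hP.hd (globe.isAtom_atom (j, a))
        (Paste.incl_atom i s (j, a)) o (isAtom_gT _))
    have hz : globe.adc.tens.nu.s l (gT ((j, a), o)) = gT ((j, a), o) :=
      (isAtom_gT _).face_eq (by
        change Paste.deg (Paste.at' i s j a) + _ ≤ l at hb
        rwa [Paste.deg_at] at hb) false
    change F.toFun _ = W.toFun q.1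
    rw [hq']
    refine Eq.trans ?_
      (congrArg (fun T : Fun globe.adc.tens.nu X => T.toFun (gT ((j, a), o))) (hW i s)).symm
    have hag : ∀ (x' : K.Cell), Agree hK σ F x' → (pasteIncl i s).comp χ = x'.mor hK.hd →
        ∀ r : (K.tens.nu.skel l).carrier, r.1 = χ.tens.cell q.1 →
          F.toFun r = (σ.toFun x').1.toFun (gT ((j, a), o)) := by
      intro x' hx' he r hr
      refine hx'.apply ⟨_, hz⟩ r ?_
      rw [hr, hq', ← ADC.Mor.cell_comp, ← ADC.Mor.tens_comp, he]
    fin_cases i
    · exact hag x hx (hχ 0 s) _ rfl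
    · exact hag y hy (hχ 1 s) _ rfl
  have hσc : (σ.toFun (K.nu.comp p x y)).1 =
      pull (ADC.Mor.compMor p (pasteIncl 0 0) (pasteIncl 1 0)) W := by
    rw [← gcomp_pull H hinc, show pull (pasteIncl 0 0) W = (σ.toFun x).1 from hW 0 0,
      show pull (pasteIncl 1 0) W = (σ.toFun y).1 from hW 1 0, ← gam_comp H hcσ]
    exact congrArg Subtype.val (σ.map_comp p x y hc)
  refine Fun.ext fun z => ?_
  change F.toFun _ = (σ.toFun (K.nu.comp p x y)).1.toFun z.1
  rw [hσc]
  refine Eq.trans (congrArg F.toFun (Subtype.ext ?_)) (congrArg (fun T :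
    Fun ((pasting p (p + 1) 1 2).adc.tens.nu.skel l) X => T.toFun
      (((ADC.Mor.compMor p (pasteIncl 0 0) (pasteIncl 1 0)).tens.map.skelMap l).toFun z)) hFW)
  change ((ADC.Cell.comp p x y).mor hK.hd).tens.cell z.1 =
    χ.tens.cell ((ADC.Mor.compMor p (pasteIncl 0 0) (pasteIncl 1 0)).tens.cell z.1)
  rw [← ADC.Mor.cell_comp, ← ADC.Mor.tens_comp, hm, ADC.Mor.compMor_comp hinc, hχ, hχ]
  rfl

theorem agree_atom (H : CylHyp.{u}) (hK : K.Good) (σ : Fun K.nu (gam H X)) {l : ℕ}
    (F : Fun (K.tens.nu.skel l) X)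
    (hF : ∀ (c : K.B) (o : Option Bool) (x : K.Cell) (q : (K.tens.nu.skel l).carrier),
      K.IsAtom c x → K.tens.deg (c, o) ≤ l → K.tens.IsAtom (c, o) q.1 →
      F.toFun q = (σ.toFun x).1.toFun (gT ((K.deg c, false), o)))
    (c : K.B) (x : K.Cell) (hx : K.IsAtom c x) : Agree hK σ F x := by
  induction hd : K.deg c using Nat.strong_induction_on generalizing c x with
  | _ d ih =>
    refine ADC.skel_ext H.toFreeHyp (H.tensGood _ globe_good) _ _ fun b q hb hq => ?_
    obtain ⟨⟨j, a⟩, o⟩ := b
    change F.toFun _ = (σ.toFun x).1.toFun q.1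
    by_cases hj : j < d
    · let x' := ADC.Cell.face a j x
      have hx's : K.nu.s j x' = x' := by
        show ADC.Cell.face false j (ADC.Cell.face a j x) = _
        rw [ADC.Cell.face_face, if_neg (lt_irrefl j)]
      have hAg : Agree hK σ F x' := ADC.gen H.toFreeHyp hK (agree_closed H hK σ F) j
        (fun c' p hc' hp => ih (K.deg c') (by omega) c' p hp rfl) x' hx's
      have hfix : (globeFace a j).tens.cell q.1 = q.1 := by
        rw [hq.eq (isAtom_gT _), globeFace_gT, collapse, if_neg (lt_irrefl j)]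
      have hσ : (σ.toFun x').1 = pull (globeFace a j) (σ.toFun x).1 := by
        cases a
        · exact congrArg Subtype.val (σ.map_s j x)
        · exact congrArg Subtype.val (σ.map_t j x)
      refine (hAg.apply q _ ?_).trans ?_
      · change (x.mor hK.hd).tens.cell q.1 = (x'.mor hK.hd).tens.cell q.1
        rw [ADC.Cell.mor_face, ADC.Mor.tens_comp, ADC.Mor.cell_comp, hfix]
      · rw [hσ]
        exact congrArg (σ.toFun x).1.toFun hfix
    · have hxd : ADC.Cell.face false d x = x := hx.face_eq (le_of_eq hd) false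
      have hσ : (σ.toFun x).1 = pull (globeFace false d) (σ.toFun x).1 := by
        conv_lhs => rw [← hxd]
        exact congrArg Subtype.val (σ.map_s d x)
      have hco : (globeFace false d).tens.cell q.1 = gT ((d, false), o) := by
        rw [hq.eq (isAtom_gT _), globeFace_gT, collapse, if_neg hj]
      have hdeg : K.tens.deg (c, o) ≤ l := by
        change K.deg c + (if o = none then 1 else 0) ≤ l
        change j + (if o = none then 1 else 0) ≤ l at hb
        omega
      refine (hF c o x _ hx hdeg ?_).trans ?_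
      · change K.tens.IsAtom (c, o) ((x.mor hK.hd).tens.cell q.1)
        rw [← hxd, ADC.Cell.mor_face, ADC.Mor.tens_comp, ADC.Mor.cell_comp, hco, ← hd]
        exact isAtom_mor_gT hK hx o
      · conv_rhs => rw [hσ]
        rw [hd]
        exact (congrArg (σ.toFun x).1.toFun hco).symm

/-- Every functor into the cylinders is a transpose. -/
theorem exists_transpose (H : CylHyp.{u}) (hK : K.Good) (σ : Fun K.nu (gam H X)) :
    ∃ U : Fun K.tens.nu X, gamLift H hK U = σ := by
  choose at0 hat0 using H.atom K hK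
  let v : K.B × Option Bool → X.carrier :=
    fun b => (σ.toFun (at0 b.1)).1.toFun (gT ((K.deg b.1, false), b.2))
  have hT := H.tensGood K hK
  have hag : ∀ l (F : Fun (K.tens.nu.skel l) X),
      (∀ b q, K.tens.deg b ≤ l → K.tens.IsAtom b q.1 → F.toFun q = v b) →
      ∀ c, Agree hK σ F (at0 c) := fun l F hF c =>
    agree_atom H hK σ F (fun c' o x q hx hle hq => by
      rw [hx.eq (hat0 c')]
      exact hF (c', o) q hle hq) c _ (hat0 c)
  obtain ⟨U, hU, -⟩ := ADC.extend H.toFreeHyp hT v (fun b => by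
      refine ((σ.toFun (at0 b.1)).1.map_s _ _).symm.trans (congrArg _ ?_)
      exact (isAtom_gT ((K.deg b.1, false), b.2)).face_eq le_rfl false)
    fun l F hF b p q hb hp => by
      obtain ⟨c, o⟩ := b
      have hA := hag l F hF c
      have hp' : p = ((at0 c).mor hK.hd).tens.map.toFun (gT ((K.deg c, false), o)) :=
        hp.eq (isAtom_mor_gT hK (hat0 c) o)
      subst hp'
      refine ⟨fun e => ?_, fun e => ?_⟩
      · refine (((σ.toFun (at0 c)).1).map_s l _).symm.trans ?_
        refine (hA.apply ⟨_, ?_⟩ q ?_).symm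
        · show ADC.Cell.face false l (ADC.Cell.face false l _) = _
          rw [ADC.Cell.face_face, if_neg (lt_irrefl l)]
        · rw [e]
          exact (((at0 c).mor hK.hd).tens.map.map_s l _).symm
      · refine (((σ.toFun (at0 c)).1).map_t l _).symm.trans ?_
        refine (hA.apply ⟨_, ?_⟩ q ?_).symm
        · show ADC.Cell.face false l (ADC.Cell.face true l _) = _
          rw [ADC.Cell.face_face, if_neg (lt_irrefl l)]
        · rw [e]
          exact (((at0 c).mor hK.hd).tens.map.map_t l _).symm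
  refine ⟨U, H.ext K hK (gam H X) _ _ fun c x hx => Subtype.ext ?_⟩
  obtain rfl := hx.eq (hat0 c)
  refine H.ext _ (H.tensGood _ globe_good) X _ _ fun b p hp => ?_
  have hA := hag (globe.adc.tens.deg b) ((K.tens.nu.subι _ (K.tens.nu.skel_closed _)).comp U)
    (fun b' q _ hq => hU b' q.1 hq) c
  exact congrArg (fun T : Fun (globe.adc.tens.nu.skel (globe.adc.tens.deg b)) X =>
    T.toFun ⟨p, hp.face_eq le_rfl false⟩) hA

/-- The functor out of the cylinder. -/
def transpose (H : CylHyp.{u}) (hK : K.Good) (σ : Fun K.nu (gam H X)) : Fun K.tens.nu X :=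
  Classical.choose (exists_transpose H hK σ)

theorem gamLift_transpose (H : CylHyp.{u}) (hK : K.Good) (σ : Fun K.nu (gam H X)) :
    gamLift H hK (transpose H hK σ) = σ :=
  Classical.choose_spec (exists_transpose H hK σ)

theorem transpose_nat (H : CylHyp.{u}) (hK : K.Good) (hL : L.Good) (φ : ADC.Mor K L)
    (σ : Fun L.nu (gam H X)) :
    transpose H hK (φ.map.comp σ) = pull φ (transpose H hL σ) :=
  gamLift_inj H hK (by rw [gamLift_transpose, gamLift_pull H hK hL, gamLift_transpose])

theorem transpose_end (H : CylHyp.{u}) (hK : K.Good) (σ : Fun K.nu (gam H X)) (o : Bool) :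
    (ADC.Mor.incl K o).map.comp (transpose H hK σ) = σ.comp (endFun H X o) := by
  rw [← gamLift_end H hK, gamLift_transpose]

end

end Vale.Agent.P213
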